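import Vale.Agent.P011LQ.Loc
import Vale.Agent.P011.Pow.ExSqrt
import Vale.Agent.P011.Tpl.H359.Abhn

/-!
Projective actions of exponent two are split by quadratic extensions.
-/

open Matrix Module NumberField IsDedekindDomain IntermediateField

namespace Vale.Agent.P011LQ

open Vale.Agent.P011LD Vale.Agent.P011 Vale.Agent.P011.W

variable {k K : Type} [Field k] [Field K] [Algebra k K] {n : Type} [Fintype n] [DecidableEq n]
  {p : ℕ} {A : (K ≃ₐ[k] K) → GL n K} {l : (K ≃ₐ[k] K) → K}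

theorem Sp.mono {Γ Γ' : Set (K ≃ₐ[k] K)} (h : Sp Γ A) (i : Γ' ⊆ Γ) : Sp Γ' A :=
  h.elim fun g hg => ⟨g, fun σ s => hg σ (i s)⟩

theorem descend {S T U : Type} [Ring S] [Ring T] [Ring U] (χ : S →+* U) (ρ : T →+* U)
    (hρ : Function.Injective ρ) (h : ∀ x, ∃ y, ρ y = χ x) :
    ∃ ψ : S →+* T, ∀ x, ρ (ψ x) = χ x := by
  choose f hf using h
  exact ⟨⟨⟨⟨f, hρ (by rw [hf, map_one, map_one])⟩, fun x y => hρ (by
    simp only [hf, map_mul])⟩, hρ (by simp only [hf, map_zero]), fun x y => hρ (by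
    simp only [hf, map_add])⟩, hf⟩

/-- Complex conjugations over a real place. -/
theorem exists_cj [Normal k K] (φ : k →+* ℝ) : ∃ (Ψ : K →+* ℂ) (κ : K ≃ₐ[k] K),
    (∀ x, Ψ (κ x) = starRingEnd ℂ (Ψ x)) ∧ ∀ x, Ψ (algebraMap k K x) = φ x := by
  let _ : Algebra k ℂ := (Complex.ofRealHom.comp φ).toAlgebra
  let ι : K →ₐ[k] ℂ := IsAlgClosed.lift
  let _ : Algebra K ℂ := ι.toRingHom.toAlgebra
  have : IsScalarTower k K ℂ := IsScalarTower.of_algebraMap_eq fun c => (ι.commutes c).symm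
  let c : ℂ ≃ₐ[k] ℂ := AlgEquiv.ofRingEquiv (f := starRingAut) fun x => Complex.conj_ofReal _
  exact ⟨ι.toRingHom, c.restrictNormal K, fun x => c.restrictNormal_commutes K x,
    fun x => ι.commutes x⟩

omit [DecidableEq n] in
theorem map_mv (σ : K ≃ₐ[k] K) (M : Matrix n n K) (v : n → K) :
    σ ∘ (M *ᵥ v) = M.map σ *ᵥ (σ ∘ v) :=
  funext fun i => RingHom.map_mulVec (σ : K →+* K) M v i

/-- A stable line at a real place. -/
theorem PA.real [Algebra.IsAlgebraic k K] [IsAlgClosed K] (h : PA ⊤ p A l) {Ψ : K →+* ℂ}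
    {κ : K ≃ₐ[k] K} (hκ : ∀ x, Ψ (κ x) = starRingEnd ℂ (Ψ x)) {v : n → K} (v0 : v ≠ 0) {μ : K}
    (hv : (A κ).1 *ᵥ (κ ∘ v) = μ • v) {φ : k →+* ℝ} (hφ : ∀ x, Ψ (algebraMap k K x) = φ x) :
    ∃ ψ : A0 A →+* Matrix n n ℝ, ∀ c : k, ψ (algebraMap k _ c) = φ c • 1 := by
  classical
  have k2 : κ * κ = 1 := AlgEquiv.ext fun x => Ψ.injective (by
    rw [AlgEquiv.mul_apply, hκ, hκ, Complex.conj_conj, AlgEquiv.one_apply])
  obtain ⟨i, hi⟩ := IsAlgClosed.exists_pow_nat_eq (-1 : K) two_pos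
  have k3 : κ i ≠ i := fun e => by
    have a1 := hκ i
    have a2 := congrArg Ψ hi
    rw [e] at a1
    obtain ⟨t, ht⟩ := Complex.conj_eq_iff_real.1 a1.symm
    rw [map_pow, map_neg, map_one, ht] at a2
    have a3 : t ^ 2 = -1 := by exact_mod_cast a2
    nlinarith [sq_nonneg t]
  have k1 : κ ≠ 1 := fun e => k3 (by rw [e]; rfl)
  obtain ⟨c, hc, -⟩ := h.mul κ trivial κ trivial
  obtain ⟨d, hd, -⟩ := h.cont.elim fun _ hS => hS 1 trivial fun _ _ => rfl
  rw [k2, hd, smul_smul] at hc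
  have kv : κ ∘ (κ ∘ v) = v := funext fun j => DFunLike.congr_fun k2 (v j)
  have m1 : c * d = κ μ * μ := by
    have a1 : (A κ).1 *ᵥ (κ ∘ ((A κ).1 *ᵥ (κ ∘ v))) = (A κ).1 *ᵥ (κ ∘ (μ • v)) := by rw [hv]
    have a2 : κ ∘ (μ • v) = κ μ • (κ ∘ v) := funext fun j => map_mul κ _ _
    rw [map_mv, kv, mulVec_mulVec, hc, a2, mulVec_smul, hv, smul_smul, smul_mulVec,
      one_mulVec] at a1
    exact smul_left_injective K v0 a1
  have μ0 : μ ≠ 0 := by
    rintro rfl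
    have a1 := congrArg ((A κ)⁻¹.1 *ᵥ ·) hv
    simp only [mulVec_mulVec, Units.inv_mul, one_mulVec, zero_smul, mulVec_zero] at a1
    exact v0 (by rw [← kv, a1]; exact funext fun _ => map_zero κ)
  have κμ : κ μ ≠ 0 := (_root_.map_ne_zero κ).2 μ0
  let Γ : Subgroup (K ≃ₐ[k] K) :=
    { carrier := {σ | σ = 1 ∨ σ = κ}
      mul_mem' := by rintro _ _ (rfl | rfl) (rfl | rfl) <;> simp [k2]
      one_mem' := Or.inl rfl
      inv_mem' := by
        rintro _ (rfl | rfl)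
        · exact Or.inl inv_one
        · exact Or.inr (inv_eq_of_mul_eq_one_right k2) }
  obtain ⟨g, hg⟩ := h90 (Γ := Γ) (fun σ => if σ = 1 then 1 else μ⁻¹ • (A κ).1) (by
      rintro σ (e | e) τ (e' | e') <;> rw [e, e']
      · simp only [one_mul, if_true, map_one']
      · simp only [one_mul, if_true]; rfl
      · simp only [mul_one, if_true, map_one']
      · rw [k2, if_pos rfl, if_neg k1, P011LD.map_smul', Matrix.smul_mul, Matrix.mul_smul, hc,
          smul_smul, smul_smul, m1, map_inv₀, show μ⁻¹ * (κ μ)⁻¹ * (κ μ * μ) = 1 by field_simp,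
          one_smul])
    ⟨{i}, by
      rintro _ (rfl | rfl) e
      · exact if_pos rfl
      · exact absurd (e i (Finset.mem_singleton_self i)) k3⟩
  have hg' := hg κ (Or.inr rfl)
  rw [if_neg k1] at hg'
  let χ : A0 A →+* Matrix n n ℂ := Ψ.mapMatrix.comp
    ((MulSemiringAction.toRingHom _ _ (ConjAct.toConjAct g⁻¹)).comp (A0 A).val.toRingHom)
  have hχ : ∀ x, χ x = (g⁻¹.1 * x.1 * g.1).map Ψ := fun x => rfl
  obtain ⟨ψ, hψ⟩ := descend χ Complex.ofRealHom.mapMatrix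
    (Matrix.map_injective Complex.ofReal_injective) fun x => by
      have a1 : (g⁻¹.1 * x.1 * g.1).map κ = g⁻¹.1 * x.1 * g.1 := by
        have i1 : g.1.map κ * g⁻¹.1.map κ = 1 := by rw [← map_mul', Units.mul_inv, map_one']
        have i2 : g.1 * g⁻¹.1.map κ = μ⁻¹ • (A κ).1 := by
          conv_lhs => rw [← hg']
          rw [Matrix.mul_assoc, i1, Matrix.mul_one]
        rw [Matrix.mul_assoc, Units.eq_inv_mul_iff_mul_eq, map_mul', map_mul', ← Matrix.mul_assoc,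
          i2, ← Matrix.mul_assoc, Matrix.smul_mul, x.2 κ, ← Matrix.mul_smul, Matrix.mul_assoc, hg']
      refine ⟨of fun a b => (χ x a b).re, Matrix.ext fun a b => Complex.conj_eq_iff_re.1 ?_⟩
      rw [hχ]
      exact (hκ _).symm.trans (congrArg Ψ (congrFun (congrFun a1 a) b))
  refine ⟨ψ, fun c => Matrix.map_injective Complex.ofReal_injective ((hψ _).trans ?_)⟩
  have a2 : (algebraMap k (A0 A) c).1 = algebraMap k K c • 1 := by
    rw [algebraMap_smul, ← Algebra.algebraMap_eq_smul_one]; rfl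
  rw [hχ, a2, Matrix.mul_smul, Matrix.mul_one, Matrix.smul_mul, Units.inv_mul]
  ext a b
  simp only [Matrix.map_apply, Matrix.smul_apply, Matrix.one_apply, smul_eq_mul, mul_ite, mul_one,
    mul_zero, apply_ite Ψ, map_zero, hφ, apply_ite ((↑) : ℝ → ℂ), Complex.ofReal_zero]

theorem fix_adjoin {σ : K ≃ₐ[k] K} {r : K} (h : σ r = r) (x : k⟮r⟯) : σ x = x :=
  DFunLike.congr_fun (IntermediateField.adjoin_algHom_ext k (φ₁ := σ.toAlgHom.comp k⟮r⟯.val)
    (φ₂ := k⟮r⟯.val) fun _ hy => by obtain rfl := hy; exact h) x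

variable [NumberField k] [IsAlgClosure k K] [Nonempty n]

/-- The local-global principle for the splitting over a simple extension. -/
theorem PA.glob (h : PA ⊤ p A l) : ∃ (d : ℕ) (D : Type) (_ : DivisionRing D) (_ : Algebra k D)
    (_ : FiniteDimensional k D) (_ : Algebra.IsCentral k D), finrank k D = d ^ 2 ∧
    d ∣ Fintype.card n ∧
    (∀ (w : HeightOneSpectrum (𝓞 k)), ∃ (q : ℕ) (E : Type) (_ : DivisionRing E)
      (_ : Algebra (w.adicCompletion k) E) (_ : FiniteDimensional (w.adicCompletion k) E)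
      (_ : Algebra.IsCentral (w.adicCompletion k) E), q ∣ p ∧
      finrank (w.adicCompletion k) E = q ^ 2 ∧ ∀ (R : Type) [Field R]
      (φ : w.adicCompletion k →+* R), Spl D d (φ.comp (algebraMap k _)) ↔ Spl E q φ) ∧
    ∀ (r : K) [NumberField k⟮r⟯], (∀ w : HeightOneSpectrum (𝓞 k⟮r⟯), Spl D d (pl (F := k) k⟮r⟯ w)) →
      (Even d → ∀ (Ψ : K →+* ℂ) (κ : K ≃ₐ[k] K), (∀ x, Ψ (κ x) = starRingEnd ℂ (Ψ x)) → κ r = r →
        ∃ v : n → K, v ≠ 0 ∧ ∃ μ : K, (A κ).1 *ᵥ (κ ∘ v) = μ • v) → Sp {σ | σ r = r} A := by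
  have := IsAlgClosure.isAlgClosed k (K := K)
  have : CharZero K := charZero_of_injective_algebraMap (algebraMap k K).injective
  have : IsGalois k K := ⟨⟩
  obtain ⟨s, d, _, D, _, _, _, _, e, hs, hD⟩ := h.frm.wed
  refine ⟨d, D, _, _, ‹_›, ‹_›, hD, Dvd.intro_left s hs, fun w => ?_, fun r _ h1 h2 => ?_⟩
  · obtain ⟨t, q, _, E, _, _, _, _, f, ht, hq, hiff⟩ := Pow.exists_part2 hD (w.adicCompletion k)
    let _ := Even.nnf w
    have := Even.isUltra w
    have : CharZero (w.adicCompletion k) :=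
      charZero_of_injective_algebraMap (algebraMap k _).injective
    exact ⟨q, E, _, _, ‹_›, ‹_›, h.loc_dvd e hs f ht hq, hq, hiff⟩
  · obtain ⟨ψ, hψ⟩ := (rep_iff e hs _).1 (Tpl.H359.abhn_gen hD k⟮r⟯ h1 fun ev φ => by
      have : Normal k⟮r⟯ K := Normal.tower_top_of_normal k _ K
      obtain ⟨Ψ, κ, a1, a2⟩ := exists_cj (K := K) φ
      obtain ⟨v, v0, μ, hv⟩ := h2 ev Ψ (κ.restrictScalars k) a1
        (κ.commutes (AdjoinSimple.gen k r))
      exact (rep_iff e hs _).2 (h.real a1 v0 hv fun x => a2 (algebraMap k _ x)))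
    exact (sp_of_rep h.frm (algebraMap k⟮r⟯ K) ψ _ (fun _ => rfl) hψ).mono
      fun σ s => fix_adjoin s

theorem nf_adjoin (r : K) : NumberField k⟮r⟯ :=
  have := adjoin.finiteDimensional (Algebra.IsIntegral.isIntegral (R := k) r)
  NumberField.of_module_finite k _

/-- **Exponent two.** -/
theorem PA.two (h : PA ⊤ 2 A l) : ∃ S : Set (HeightOneSpectrum (𝓞 k)), S.Finite ∧
    ∀ (a : k) (r : K), r ^ 2 = algebraMap k K a →
      (∀ w ∈ S, ¬IsSquare (algebraMap k (w.adicCompletion k) a)) →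
      (∀ (Ψ : K →+* ℂ) (κ : K ≃ₐ[k] K), (∀ x, Ψ (κ x) = starRingEnd ℂ (Ψ x)) → κ r = r →
        ∃ v : n → K, v ≠ 0 ∧ ∃ μ : K, (A κ).1 *ᵥ (κ ∘ v) = μ • v) → Sp {σ | σ r = r} A := by
  obtain ⟨d, D, _, _, _, _, hD, -, h1, h2⟩ := h.glob
  obtain ⟨S, hS, h3⟩ := spl_almost (deg_pos hD) hD
  refine ⟨S, hS, fun a r hr ha hκ => ?_⟩
  have := nf_adjoin (k := k) r
  refine h2 r (fun w' => ?_) fun _ => hκ
  obtain ⟨w, hw⟩ := Arith.exists_below (F := k) w'
  by_cases e : w ∈ S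
  · obtain ⟨q, E, _, _, _, _, a1, a2, a3⟩ := h1 w
    have a4 := (Pow.idx_part a3 (RingHom.id _)).2 (Pow.idx_self (m := 1) a2 a1)
    exact (Pow.idx_quad Pow.lq_all hD (r := AdjoinSimple.gen k r) (Subtype.ext hr) hw (ha w e)
      (m := 0) a4).spl
  · exact h3 w e _ w' hw

end Vale.Agent.P011LQ
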