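import Vale.Agent.P011LQ.Sub
import Vale.Agent.P011LH.Defs

/-!
The block BR2.
-/

open Matrix Module

namespace Vale.Agent.P011LQ

open Vale.Agent.P011LD

theorem Sp.line {k K : Type} [Field k] [Field K] [Algebra k K] {n : Type} [Fintype n]
    [DecidableEq n] [Nonempty n] {Γ : Set (K ≃ₐ[k] K)} {A : (K ≃ₐ[k] K) → GL n K} (h : Sp Γ A) :
    ∃ v : n → K, v ≠ 0 ∧ ∀ σ ∈ Γ, ∃ μ : K, (A σ).1 *ᵥ (σ ∘ v) = μ • v := by
  obtain ⟨g, hg⟩ := h
  obtain ⟨j⟩ := ‹Nonempty n›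
  refine ⟨g.1 *ᵥ Pi.single j 1, fun e => ?_, fun σ s => (hg σ s).imp fun μ e => ?_⟩
  · have := congrArg (g⁻¹.1 *ᵥ ·) e
    simp only [mulVec_mulVec, Units.inv_mul, one_mulVec, mulVec_zero] at this
    simpa using congrFun this j
  · have a1 : σ ∘ (Pi.single j 1 : n → K) = Pi.single j 1 :=
      funext fun i => by by_cases e : i = j <;> simp [e]
    rw [map_mv, a1, mulVec_mulVec, e, smul_mulVec]

/-- **BR2.** -/
theorem br2 : P011LH.BR2 := by
  intro k K _ _ _ _ _ V _ _ _ _ B Γ Γ' p S b1 b2 hi hΓ hΓ' h1 h2 h3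
  have : CharZero K := charZero_of_injective_algebraMap (algebraMap k K).injective
  have : Nonempty (Fin (finrank K V)) := ⟨⟨0, finrank_pos⟩⟩
  let b := (finBasis K V).equivFun.symm
  obtain ⟨A, hA⟩ := exists_mat b p fun σ s => ⟨(h1 σ s).1, (h1 σ s).2.1, (h1 σ s).2.2.1⟩
  obtain ⟨l, hl⟩ : ∃ l : (K ≃ₐ[k] K) → K, ∀ σ ∈ Γ, ∀ v w, B (p σ v) (p σ w) = l σ * σ (B v w) := by
    refine Classical.skolem (p := fun σ μ => σ ∈ Γ → ∀ v w, B (p σ v) (p σ w) = μ * σ (B v w)).1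
      fun σ => ?_
    by_cases s : σ ∈ Γ
    · exact (h1 σ s).2.2.2.1.imp fun _ e _ => e
    · exact ⟨1, fun e => absurd e s⟩
  obtain ⟨v₀, h0⟩ : ∃ v, B v v ≠ 0 := by
    by_contra hc
    push Not at hc
    obtain ⟨v, hv⟩ := exists_ne (0 : V)
    refine hv (b2 v fun w => ?_)
    have := hc (v + w)
    simp only [map_add, LinearMap.add_apply, hc, b1 w v] at this
    linear_combination this / 2
  have ext : ∀ (σ : K ≃ₐ[k] K) (M N : Matrix (Fin (finrank K V)) (Fin (finrank K V)) K),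
      (∀ v, M *ᵥ (σ ∘ v) = N *ᵥ (σ ∘ v)) → M = N := fun σ M N e =>
    Matrix.toLin'.injective (LinearMap.ext fun v => by
      simpa only [show σ ∘ (σ.symm ∘ v) = v from funext fun i => σ.apply_symm_apply _,
        toLin'_apply] using e (σ.symm ∘ v))
  have H : PA Γ 2 A l := by
    refine PA.of_form (fun v => B (b v) (b v)) (fun c v => by
        simp only [map_smul, LinearMap.smul_apply, smul_eq_mul, sq, mul_assoc])
      (v₀ := b.symm v₀) (by simpa using h0)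
      (fun σ s => ⟨fun e => ?_, fun v => by rw [hA σ s, hl σ s]⟩)
      (fun σ s τ t => ((h1 σ s).2.2.2.2 τ t).imp fun c e => ext (σ * τ) _ _ fun v => ?_) ?_
    · obtain ⟨v, rfl⟩ := (h1 σ s).2.2.1.2 v₀
      exact h0 (by rw [hl σ s, e, zero_mul])
    · apply b.injective
      rw [smul_mulVec, map_smul, hA _ (Γ.mul_mem s t), ← e, ← hA τ t, ← hA σ s, map_mv,
        mulVec_mulVec]
      rfl
    · refine (Op.all fun j => h2 v₀ (b (Pi.single j 1))).imp fun σ s e => ?_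
      choose t e1 e2 using e
      obtain ⟨j₀⟩ := ‹Nonempty (Fin (finrank K V))›
      have v0 : v₀ ≠ 0 := by rintro rfl; exact h0 (by simp)
      refine ⟨t j₀, Matrix.ext fun i j => ?_⟩
      have a1 : σ ∘ (Pi.single j 1 : Fin (finrank K V) → K) = Pi.single j 1 :=
        funext fun i => by by_cases e : i = j <;> simp [e]
      have a2 := hA σ s (Pi.single j 1)
      rw [a1, e2, ← map_smul, smul_left_injective K v0 ((e1 j).symm.trans (e1 j₀))] at a2
      simpa [Matrix.one_apply, Pi.single_apply] using congrFun (b.injective a2) i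
  obtain ⟨a, r, r0, r1, r2, r3, r4⟩ := br2_mat H hΓ hi.le hΓ' S fun φ hφ Ψ κ e1 e2 e3 => by
    obtain ⟨v, v0, t, ht⟩ := h3 φ hφ Ψ κ e1 e2 e3
    exact ⟨b.symm v, by simpa using v0, t, b.injective (by
      rw [hA κ e3, map_smul, b.apply_symm_apply, ht])⟩
  obtain ⟨v, v0, hv⟩ := r4.line
  exact ⟨a, r, r0, r1, r2, r3, b v, by simpa using v0, fun σ s e =>
    (hv σ ⟨s, e⟩).imp fun μ e => by rw [← hA σ s, e, map_smul]⟩

end Vale.Agent.P011LQ
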