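import Vale.Agent.P011LQ.Sub
import Vale.Agent.P011.W.Near

/-!
Projective actions of exponent three are split by cyclic cubic extensions.
-/

open Matrix Module NumberField IsDedekindDomain IntermediateField Polynomial

namespace Vale.Agent.P011LQ

open Vale.Agent.P011LD Vale.Agent.P011 Vale.Agent.P011.W Vale.Agent.P011.Even.LocDiv

/-- The generic cyclic cubic polynomial. -/
noncomputable def cp {R : Type} [CommRing R] (u : R) : R[X] :=
  X ^ 3 - C u * X ^ 2 + C (u - 3) * X + 1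

section

variable {R S : Type} [CommRing R] [CommRing S]

theorem cp_map (f : R →+* S) (u : R) : (cp u).map f = cp (f u) := by
  simp [cp, map_ofNat]

theorem cp_eval (u x : R) : (cp u).eval x = x ^ 3 - u * x ^ 2 + (u - 3) * x + 1 := by simp [cp]

theorem map_cp (f : R →+* S) (u x : R) : f ((cp u).eval x) = (cp (f u)).eval (f x) := by
  simp [cp_eval, map_ofNat]

theorem map_cp' (f : R →+* S) (u x : R) :
    f ((cp u).derivative.eval x) = (cp (f u)).derivative.eval (f x) := by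
  rw [← cp_map, derivative_map, eval_map, eval₂_hom]

theorem cp_monic [Nontrivial R] (u : R) : (cp u).Monic := by unfold cp; monicity!

theorem cp_deg [Nontrivial R] (u : R) : (cp u).natDegree = 3 := by unfold cp; compute_degree!

end

theorem cp_irr {R : Type} [Field R] {u : R} (h : ∀ x, (cp u).eval x ≠ 0) : Irreducible (cp u) :=
  ((cp_monic u).irreducible_iff_roots_eq_zero_of_degree_le_three (by simp [cp_deg])
    (cp_deg u).le).2 (Multiset.eq_zero_of_forall_notMem fun x hx =>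
      h x ((mem_roots (cp_monic u).ne_zero).1 hx))

theorem cp_min {R S : Type} [Field R] [Ring S] [IsDomain S] [Algebra R S] {u : R}
    (h : ∀ x, (cp u).eval x ≠ 0) {y : S} (hy : aeval y (cp u) = 0) : minpoly R y = cp u :=
  (minpoly.eq_of_irreducible_of_monic (cp_irr h) hy (cp_monic u)).symm

theorem cp_aeval {R S : Type} [CommRing R] [CommRing S] [Algebra R S] (u : R) (y : S) :
    aeval y (cp u) = (cp (algebraMap R S u)).eval y := by
  rw [← cp_map, eval_map, aeval_def]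

theorem exists_noroot (κ : Type) [Field κ] [Finite κ] : ∃ u : κ, ∀ x, (cp u).eval x ≠ 0 := by
  have h : ¬Function.Surjective fun x : κ => (x ^ 3 - 3 * x + 1) / (x ^ 2 - x) := fun h =>
    zero_ne_one (Finite.injective_iff_surjective.2 h (by simp : _ = _) : (0 : κ) = 1)
  obtain ⟨u, hu⟩ := not_forall.1 h
  refine ⟨u, fun x e => hu ⟨x, ?_⟩⟩
  rw [cp_eval] at e
  have x0 : x ^ 2 - x ≠ 0 := fun e' => by
    rcases mul_eq_zero.1 (by linear_combination e' : x * (x - 1) = 0) with a | a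
    · simp [a] at e
    · rw [sub_eq_zero.1 a] at e
      exact one_ne_zero (by linear_combination -e : (1 : κ) = 0)
  exact (div_eq_iff x0).2 (by linear_combination e)

section

variable {W : Type} [NormedField W] [IsUltrametricDist W]

theorem cp_coeff {u : W} (hu : ‖u‖ ≤ 1) (i : ℕ) : ‖(cp u).coeff i‖ ≤ 1 := by
  rw [show cp u = _ from (cp_map (ringO W).subtype ⟨u, hu⟩).symm, coeff_map]
  exact ((cp (⟨u, hu⟩ : ringO W)).coeff i).2

theorem cp_close {u x z : W} (hu : ‖u‖ ≤ 1) (hx : ‖x‖ ≤ 1) (h : ‖x - z‖ < 1)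
    (h0 : ‖(cp u).eval x‖ < 1) : ‖z‖ ≤ 1 ∧ ‖(cp u).eval z‖ < 1 := by
  have hz : ‖z‖ ≤ 1 := by
    simpa [mem_ringO] using
      (ringO W).sub_mem (show x ∈ ringO W from hx) (show x - z ∈ ringO W from h.le)
  have e : Ideal.Quotient.mk (idealM W) ⟨x, hx⟩ = Ideal.Quotient.mk _ ⟨z, hz⟩ :=
    Ideal.Quotient.eq.2 h
  have a : ∀ y : ringO W, ‖(cp u).eval y.1‖ < 1 ↔
      (cp (Ideal.Quotient.mk (idealM W) ⟨u, hu⟩)).eval (Ideal.Quotient.mk _ y) = 0 := fun y => by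
    rw [← map_cp, Ideal.Quotient.eq_zero_iff_mem, mem_idealM]
    exact iff_of_eq (congrArg (‖·‖ < 1) (map_cp (ringO W).subtype ⟨u, hu⟩ y).symm)
  exact ⟨hz, (a ⟨z, hz⟩).2 (e ▸ (a ⟨x, hx⟩).1 h0)⟩

theorem cp_ne {u : W} (hu : ‖u‖ ≤ 1) (h : ∀ x, ‖x‖ ≤ 1 → ¬‖(cp u).eval x‖ < 1) (x : W) :
    (cp u).eval x ≠ 0 := fun e =>
  h x (norm_root_le (cp_monic u) le_rfl (cp_coeff hu) e) (by simp [e])

/-- A root in the unramified cubic extension. -/
theorem root3 [ProperSpace W] (σ : W →+* W) (h1 : ∀ x, ‖σ x‖ = ‖x‖) (h3 : ∀ x, σ (σ (σ x)) = x)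
    (hne : ∃ x, ‖x‖ ≤ 1 ∧ ¬‖σ x - x‖ < 1) {u : W} (hu : ‖u‖ ≤ 1) (hσ : σ u = u)
    (hno : ∀ x, ‖x‖ ≤ 1 → ‖σ x - x‖ < 1 → ¬‖(cp u).eval x‖ < 1) : ∃ y, (cp u).eval y = 0 := by
  let _ : Field (Res W) := Field.ofIsUnitOrEqZero (res_isUnit_or W)
  let s : ringO W →+* ringO W := σ.restrict _ _ fun x hx => (h1 x).trans_le hx
  let f : Res W →+* Res W := Ideal.quotientMap _ s fun x hx => (h1 x.1).trans_lt hx
  let mk := Ideal.Quotient.mk (idealM W)
  have f3 : ∀ x, f (f (f x)) = x := fun x => by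
    obtain ⟨x, rfl⟩ := Ideal.Quotient.mk_surjective x
    exact congrArg mk (Subtype.ext (h3 x.1))
  let φ : Res W ≃+* Res W :=
    RingEquiv.ofRingHom f (f.comp f) (RingHom.ext f3) (RingHom.ext f3)
  have : Finite (Res W ≃+* Res W) := Finite.of_injective _ DFunLike.coe_injective
  have := Fintype.ofFinite (Subgroup.zpowers φ)
  have : Fact (Nat.Prime 3) := ⟨Nat.prime_three⟩
  have o3 : orderOf φ = 3 := orderOf_eq_prime (RingEquiv.ext f3) fun e => by
    obtain ⟨x, hx, h⟩ := hne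
    exact h (Ideal.Quotient.eq.1 (DFunLike.congr_fun e (mk ⟨x, hx⟩)))
  let κ := FixedPoints.subfield (Subgroup.zpowers φ) (Res W)
  have r3 : finrank κ (Res W) = 3 := by
    rw [FixedPoints.finrank_eq_card, Fintype.card_eq_nat_card, Nat.card_zpowers, o3]
  let ū : κ := ⟨mk ⟨u, hu⟩, fun g => (Subgroup.zpowers_le (g := φ)
    (H := MulAction.stabilizer _ (mk ⟨u, hu⟩))).2 (congrArg mk (Subtype.ext hσ)) g.2⟩
  have a : ∀ y : ringO W, mk ((cp ⟨u, hu⟩).eval y) = 0 ↔ ‖(cp u).eval y.1‖ < 1 := fun y => by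
    rw [Ideal.Quotient.eq_zero_iff_mem, mem_idealM]
    exact iff_of_eq (congrArg (‖·‖ < 1) (map_cp (ringO W).subtype ⟨u, hu⟩ y))
  have n0 : ∀ x, (cp ū).eval x ≠ 0 := fun x e => by
    obtain ⟨y, hy⟩ := Ideal.Quotient.mk_surjective x.1
    have a1 := x.2 ⟨φ, Subgroup.mem_zpowers φ⟩
    rw [← hy] at a1
    refine hno y.1 y.2 (Ideal.Quotient.eq.1 a1) ((a y).1 ?_)
    rw [map_cp, hy]
    exact (map_cp κ.subtype ū x).symm.trans (by rw [e, map_zero])
  have : Fact (Irreducible (cp ū)) := ⟨cp_irr n0⟩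
  obtain ⟨ψ⟩ := FiniteField.nonempty_algHom_of_finrank_dvd (F := κ) (K := AdjoinRoot (cp ū))
    (L := Res W) (by
      rw [(AdjoinRoot.powerBasis (cp_monic ū).ne_zero).finrank, AdjoinRoot.powerBasis_dim, cp_deg,
        r3])
  obtain ⟨z, hz⟩ := Ideal.Quotient.mk_surjective (ψ (AdjoinRoot.root _))
  have z1 : aeval (mk z) (cp ū) = 0 := by
    rw [hz, aeval_algHom_apply, AdjoinRoot.aeval_eq, AdjoinRoot.mk_self, map_zero]
  have z2 := (PerfectField.separable_of_irreducible (cp_irr n0)).aeval_derivative_ne_zero z1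
  rw [aeval_def, ← eval_map, ← derivative_map, cp_map] at z2
  rw [cp_aeval] at z1
  have z3 : ‖(cp u).derivative.eval z.1‖ = 1 := by
    have e := map_cp' (ringO W).subtype ⟨u, hu⟩ z
    refine (congrArg norm e).symm.trans (le_antisymm
      ((cp (⟨u, hu⟩ : ringO W)).derivative.eval z).2 (not_lt.1 fun h => z2 ?_))
    exact (map_cp' mk ⟨u, hu⟩ z).symm.trans (Ideal.Quotient.eq_zero_iff_mem.2 h)
  refine exists_root (cp u) z.1 (M := 1) (fun i => by
    simpa using norm_taylor_le (cp u) le_rfl z.2 (cp_coeff hu) le_rfl i) ?_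
  rw [z3, one_mul, one_pow]
  exact (a z).1 ((map_cp mk _ _).trans z1)

end

/-- The cyclic cubic extensions which are inert split the local division algebras of degree
three. -/
theorem spl3 {R E : Type} [NontriviallyNormedField R] [IsUltrametricDist R] [ProperSpace R]
    [i : DivisionRing E] [j : Algebra R E] [FiniteDimensional R E] [Algebra.IsCentral R E]
    (hq : finrank R E = 3 ^ 2) {u : R} (hu : ‖u‖ ≤ 1)
    (hno : ∀ x, ‖x‖ ≤ 1 → ¬‖(cp u).eval x‖ < 1) {R' : Type} [Field R'] (φ : R →+* R') {θ : R'}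
    (hθ : (cp (φ u)).eval θ = 0) : Spl E 3 φ := by
  obtain ⟨i', j', rfl, hj, _, ⟨F⟩⟩ := local_ind (k := R) (E := E)
  obtain rfl := eq_of_heq hj
  obtain ⟨W, iW, _, _, ⟨C⟩⟩ := exists_cyc (k := R) F
  have m3 : C.m = 3 := Nat.pow_left_injective two_ne_zero ((cyc_deg C).1.symm.trans hq)
  let _ : NormedField W := { iW, NormedDivisionRing.induced W E C.ι C.inj with }
  have hn : ∀ w : W, ‖w‖ = ‖C.ι w‖ := fun _ => rfl
  let _ : NormedAlgebra R W :=
    { (inferInstance : Algebra R W) with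
      norm_smul_le := fun c x => by rw [hn, hn, map_smul, norm_smul] }
  have : IsUltrametricDist W := IsUltrametricDist.isUltrametricDist_of_forall_norm_add_le_max_norm
    fun x y => by rw [hn, hn, hn, map_add]; exact IsUltrametricDist.norm_add_le_max _ _
  have : ProperSpace W := FiniteDimensional.proper R W
  obtain ⟨y, hy⟩ := root3 (C.σ : W →+* W) (C.norm_σ 1) (by simpa [m3] using C.σ_m)
    ⟨C.ω, by simpa [hn] using (C.norm_ω 1).le, by
      have := C.norm_ζ_sub (a := 1) (b := 0) one_ne_zero (by omega) C.m0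
      rw [← C.hω, ← map_pow, ← map_pow, ← C.σ_ω, ← C.σ_ω, ← map_sub] at this
      exact this.not_lt⟩ (u := algebraMap R W u) (by rwa [norm_algebraMap']) (C.σ.commutes u)
    fun x hx h1 h2 => by
      obtain ⟨c, hc⟩ : ∃ c : R, ‖x - algebraMap R W c‖ < 1 := by
        rcases hx.eq_or_lt with e | e
        · obtain ⟨a, ha⟩ := F.gen (C.ι x) e
          rw [← C.hω, ← map_pow, ← map_sub] at ha
          have a1 : ‖C.ι (C.σ x - C.σ (C.ω ^ a))‖ < 1 := by
            rw [← map_sub]; exact (C.norm_σ 1 _).trans_lt ha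
          have a2 : C.σ (C.ω ^ a) = C.ω ^ (a * F.j ^ 1) := C.σ_ωl 1 a
          have a3 : F.ζ ^ (a * F.j ^ 1) = F.ζ ^ a := F.pow_inj (by
            rw [← C.hω, ← map_pow, ← map_pow, ← a2]
            rw [map_sub] at a1 ha
            exact norm_sub_lt_trans (norm_sub_lt_trans (by rwa [norm_sub_rev])
              (by rw [← map_sub]; exact h1)) ha)
          obtain ⟨c, hc⟩ := C.exists_base (w := C.ω ^ a)
            (a2.trans (C.inj (by rw [map_pow, map_pow, C.hω, a3])))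
          exact ⟨c, hc ▸ ha⟩
        · exact ⟨0, by simpa using e⟩
      obtain ⟨c1, c2⟩ := cp_close (by rwa [norm_algebraMap']) hx hc h2
      rw [← map_cp, norm_algebraMap'] at c2
      exact hno c (by rwa [norm_algebraMap'] at c1) c2
  have hm : minpoly R (C.ι y) = cp u :=
    cp_min (cp_ne hu hno) (by rw [aeval_algHom_apply, cp_aeval, hy, map_zero])
  exact spl_of_eval three_pos hq (x := C.ι y) (by rw [hm, cp_deg]) φ (r := θ)
    (by rw [hm, ← eval_map, cp_map, hθ])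

section

variable {k : Type} [Field k] [NumberField k]

theorem noroot_loc {w : HeightOneSpectrum (𝓞 k)} {u : 𝓞 k}
    (h : ∀ x, (cp u).eval x ∉ w.asIdeal) : ‖algebraMap k (w.adicCompletion k) u‖ ≤ 1 ∧
      ∀ x, ‖x‖ ≤ 1 → ¬‖(cp (algebraMap k (w.adicCompletion k) u)).eval x‖ < 1 := by
  have := Even.isUltra w
  have hu : ‖algebraMap k (w.adicCompletion k) u‖ ≤ 1 := by
    rw [Even.norm_le_one_iff, Even.valued_alg]
    exact w.valuation_le_one u
  refine ⟨hu, fun x hx h1 => ?_⟩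
  obtain ⟨y, hy⟩ := Even.dense w x 1 one_pos
  obtain ⟨y1, y2⟩ := cp_close hu hx hy h1
  obtain ⟨z, hz⟩ := w.exists_valuation_sub_lt_of_integer (K := k) (x := y)
    (by rwa [Even.norm_le_one_iff, Even.valued_alg] at y1) 1
  have z2 := (cp_close hu y1 (z := algebraMap k _ (z : k)) (by
    rw [norm_sub_rev, ← map_sub, Even.norm_lt_one_iff, Even.valued_alg]; exact hz) y2).2
  rw [← map_cp, Even.norm_lt_one_iff, Even.valued_alg] at z2
  refine h z ((w.valuation_lt_one_iff_mem (K := k) _).1 ?_)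
  exact (congrArg (w.valuation k) (map_cp (algebraMap (𝓞 k) k) u z)).trans_lt z2

/-- The choice of the cubic extension. -/
theorem exists_u (F : Type) [Field F] [NumberField F] [Algebra k F] (hF : finrank k F ≤ 2)
    {S : Set (HeightOneSpectrum (𝓞 F))} (hS : S.Finite) :
    ∃ u : 𝓞 k, ∀ w ∈ S, ∀ x, (cp (algebraMap (𝓞 k) (𝓞 F) u)).eval x ∉ w.asIdeal := by
  have h1 := (Pow.below_finite (F := k) hS).to_subtype
  have h2 : ∀ v : HeightOneSpectrum (𝓞 k), ∃ u : 𝓞 k ⧸ v.asIdeal, ∀ x, (cp u).eval x ≠ 0 :=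
    fun v => by
      have := v.isMaximal
      let _ := Ideal.Quotient.field v.asIdeal
      exact exists_noroot _
  choose t ht using h2
  obtain ⟨u, hu⟩ := Ideal.pi_quotient_surjective (I := fun v : {v : HeightOneSpectrum (𝓞 k) |
      ∃ w ∈ S, w.asIdeal.comap (algebraMap (𝓞 k) (𝓞 F)) = v.asIdeal} => v.1.asIdeal)
    (fun v v' e => Ideal.isCoprime_iff_sup_eq.2 (v.1.isMaximal.coprime_of_ne v'.1.isMaximal
      fun e' => e (Subtype.ext (HeightOneSpectrum.ext e')))) fun v => t v.1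
  refine ⟨u, fun w hw x hx => ?_⟩
  obtain ⟨v, hv⟩ := Arith.exists_below (F := k) w
  have : w.asIdeal.LiesOver v.asIdeal := ⟨hv.symm⟩
  have := v.isMaximal
  have := w.isMaximal
  let _ := Ideal.Quotient.field v.asIdeal
  let _ := Ideal.Quotient.field w.asIdeal
  have : NoZeroSMulDivisors (𝓞 k) (𝓞 F) := ⟨fun {c x} h => by
    rw [Algebra.smul_def, mul_eq_zero] at h
    exact h.imp_left fun h0 => FaithfulSMul.algebraMap_injective (𝓞 k) (𝓞 F)
      (by rw [h0, map_zero])⟩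
  have h3 := (Ideal.inertiaDeg_le_finrank (𝓞 F) k F (p := v.asIdeal) w.asIdeal v.ne_bot).trans hF
  rw [Ideal.inertiaDeg'_algebraMap] at h3
  have h4 := minpoly.natDegree_le (A := 𝓞 k ⧸ v.asIdeal) (Ideal.Quotient.mk w.asIdeal x)
  rw [cp_min (ht v) (by
    rw [cp_aeval, ← hu ⟨v, w, hw, hv⟩]
    exact (map_cp (Ideal.Quotient.mk w.asIdeal) _ x).symm.trans
      (Ideal.Quotient.eq_zero_iff_mem.2 hx)), cp_deg] at h4
  omega

variable {K : Type} [Field K] [Algebra k K] {n : Type} [Fintype n] [DecidableEq n]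
  {A : (K ≃ₐ[k] K) → GL n K} {l : (K ≃ₐ[k] K) → K} [IsAlgClosure k K] [Nonempty n]

/-- **Exponent three.** -/
theorem PA.three (h : PA ⊤ 3 A l) (hn : Odd (Fintype.card n)) :
    ∃ S : Set (HeightOneSpectrum (𝓞 k)), S.Finite ∧ ∀ (u : 𝓞 k) (θ : K),
      (cp (algebraMap k K u)).eval θ = 0 → (∀ w ∈ S, ∀ x, (cp u).eval x ∉ w.asIdeal) →
      Sp {σ | σ θ = θ} A := by
  obtain ⟨d, D, _, _, _, _, hD, hd, h1, h2⟩ := h.glob
  obtain ⟨S, hS, h3⟩ := spl_almost (deg_pos hD) hD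
  refine ⟨S, hS, fun u θ hθ hu => ?_⟩
  have := nf_adjoin (k := k) θ
  refine h2 θ (fun w' => ?_) fun e => absurd (hn.of_dvd_nat hd) (Nat.not_odd_iff_even.2 e)
  obtain ⟨w, hw⟩ := Arith.exists_below (F := k) w'
  by_cases e : w ∈ S
  · obtain ⟨q, E, _, _, _, _, a1, a2, a3⟩ := h1 w
    obtain ⟨g, hg⟩ := completion_map hw
    rw [show pl (F := k) k⟮θ⟯ w' = g.comp (algebraMap k _) from RingHom.ext fun x => (hg x).symm,
      a3]
    rcases (Nat.dvd_prime Nat.prime_three).1 a1 with rfl | rfl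
    · exact (spl_of_maxfield a2 (finrank_self _) (Algebra.ofId _ E)).comp g
    · let _ := Even.nnf w
      have := Even.isUltra w
      refine spl3 a2 (noroot_loc (hu w e)).1 (noroot_loc (hu w e)).2 g
        (θ := algebraMap k⟮θ⟯ _ (AdjoinSimple.gen k θ)) ?_
      rw [hg, ← map_cp, _root_.map_eq_zero]
      exact Subtype.ext ((map_cp (algebraMap k⟮θ⟯ K) _ _).trans hθ)
  · exact h3 w e _ w' hw

omit [NumberField k] [IsAlgClosure k K] in
/-- The three roots of the cyclic cubic. -/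
theorem cp_roots [CharZero K] {u : k} {θ : K} (hθ : (cp (algebraMap k K u)).eval θ = 0)
    (n1 : ∀ c : k, θ ≠ algebraMap k K c) : ∃ t : Fin 3 → K, t 0 = θ ∧ Function.Injective t ∧
      (∀ i, t (i + 1) = (1 - t i)⁻¹) ∧
      ∀ x, (cp (algebraMap k K u)).eval x = (x - t 0) * (x - t 1) * (x - t 2) := by
  have t0 : θ ≠ 0 := by simpa using n1 0
  have t1 : 1 - θ ≠ 0 := sub_ne_zero.2 (by simpa using (n1 1).symm)
  rw [cp_eval] at hθ
  have t2 : θ ^ 2 - θ + 1 ≠ 0 := fun e => n1 (u / 3) (by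
    rw [map_div₀, map_ofNat]
    linear_combination (-1 / 3) * hθ + (θ + 1 - algebraMap k K u) / 3 * e)
  have fac : ∀ x, (cp (algebraMap k K u)).eval x =
      (x - θ) * (x - (1 - θ)⁻¹) * (x - (1 - θ⁻¹)) := fun x => by
    have e : algebraMap k K u = θ + (1 - θ)⁻¹ + (1 - θ⁻¹) := by
      field_simp
      linear_combination hθ
    rw [cp_eval, e]
    field_simp
    ring
  have s1 : 1 - θ⁻¹ = (1 - (1 - θ)⁻¹)⁻¹ := by
    refine eq_inv_of_mul_eq_one_left ?_
    field_simp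
    ring
  have s2 : θ = (1 - (1 - θ⁻¹))⁻¹ := by simp
  have a01 : θ ≠ (1 - θ)⁻¹ := fun e => t2 (by
    have := mul_inv_cancel₀ t1
    rw [← e] at this
    linear_combination -this)
  have a02 : θ ≠ 1 - θ⁻¹ := fun e => t2 (by
    have := mul_inv_cancel₀ t0
    linear_combination θ * e - this)
  have a12 : (1 - θ)⁻¹ ≠ 1 - θ⁻¹ := fun e => a02
    (s2.trans ((congrArg (fun x => (1 - x)⁻¹) e).symm.trans s1.symm))
  refine ⟨![θ, (1 - θ)⁻¹, 1 - θ⁻¹], rfl, fun i j e => ?_, fun i => ?_, fac⟩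
  · fin_cases i <;> fin_cases j
    exacts [rfl, absurd e a01, absurd e a02, absurd e a01.symm, rfl, absurd e a12,
      absurd e a02.symm, absurd e a12.symm, rfl]
  · fin_cases i
    exacts [rfl, s1, s2]

omit [NumberField k] [IsAlgClosure k K] in
theorem cp_perm {u : k} {t : Fin 3 → K} (inj : Function.Injective t)
    (s1 : ∀ i, t (i + 1) = (1 - t i)⁻¹)
    (fac : ∀ x, (cp (algebraMap k K u)).eval x = (x - t 0) * (x - t 1) * (x - t 2)) :
    ∃ π : (K ≃ₐ[k] K) →* Equiv.Perm (Fin 3), (∀ σ i, σ (t i) = t (π σ i)) ∧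
      ∀ σ, ∃ j, ∀ i, π σ i = i + j := by
  have ex : ∀ σ : K ≃ₐ[k] K, ∃ j, ∀ i, σ (t i) = t (i + j) := fun σ => by
    obtain ⟨j, hj⟩ : ∃ j, σ (t 0) = t j := by
      have := map_cp (σ : K →+* K) (algebraMap k K u) (t 0)
      rw [fac, sub_self, zero_mul, zero_mul, map_zero, RingHom.coe_coe, σ.commutes, fac,
        eq_comm] at this
      simp only [mul_eq_zero, sub_eq_zero] at this
      rcases this with (e | e) | e
      exacts [⟨0, e⟩, ⟨1, e⟩, ⟨2, e⟩]
    have st : ∀ i, σ (t i) = t (i + j) → σ (t (i + 1)) = t (i + 1 + j) := fun i e => by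
      rw [s1, add_right_comm, s1, ← e, map_inv₀, map_sub, map_one]
    have e0 : σ (t 0) = t (0 + j) := by rwa [zero_add]
    refine ⟨j, fun i => ?_⟩
    fin_cases i
    exacts [e0, st 0 e0, st 1 (st 0 e0)]
  choose χ hχ using ex
  exact ⟨MonoidHom.mk' (fun σ => Equiv.addRight (χ σ)) fun σ τ => Equiv.ext fun i =>
    inj ((hχ _ i).symm.trans ((congrArg σ (hχ τ i)).trans (hχ σ _))), hχ,
    fun σ => ⟨χ σ, fun _ => rfl⟩⟩

theorem noroot_glob {w : HeightOneSpectrum (𝓞 k)} {u : 𝓞 k}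
    (h : ∀ x, (cp u).eval x ∉ w.asIdeal) (x : k) : (cp (u : k)).eval x ≠ 0 := fun e => by
  have := Even.isUltra w
  obtain ⟨a1, a2⟩ := noroot_loc h
  refine cp_ne a1 a2 (algebraMap k _ x) ?_
  rw [← map_cp, e, map_zero]

theorem br3'' {Γ : Subgroup (K ≃ₐ[k] K)} (h : PA Γ 3 A l) (hΓ : Op ⊤ fun σ => σ ∈ Γ)
    (hi : Γ.index ≤ 2) (hn : Odd (Fintype.card n)) : ∃ (u : k) (θ : K),
      (cp (algebraMap k K u)).eval θ = 0 ∧ (∀ c : k, θ ≠ algebraMap k K c) ∧
      (∀ y, (cp (algebraMap k K u)).eval y = 0 → ∃ r ∈ Γ, r θ = y) ∧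
      Sp {σ | σ ∈ Γ ∧ σ θ = θ} A := by
  have := IsAlgClosure.isAlgClosed k (K := K)
  have : IsGalois k K := ⟨⟩
  obtain ⟨F, _, h1, h2⟩ := exists_field hΓ
  have : NumberField F := NumberField.of_module_finite k F
  have : IsAlgClosure F K := ⟨inferInstance, Algebra.IsAlgebraic.tower_top (K := k) F⟩
  obtain ⟨S, hS, h4⟩ := (h.res h2).three hn
  obtain ⟨w₀⟩ := Arith.nonempty_prime (F := F)
  obtain ⟨u, hu⟩ := exists_u (k := k) F (h1 ▸ hi) (hS.insert w₀)
  obtain ⟨θ, hθ⟩ := IsAlgClosed.exists_root (cp (algebraMap k K u))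
    (degree_ne_of_natDegree_ne (by simp [cp_deg]))
  replace hθ : (cp (algebraMap k K u)).eval θ = 0 := hθ
  have e1 : ((algebraMap (𝓞 k) (𝓞 F) u : 𝓞 F) : F) = algebraMap k F u := rfl
  have e2 : algebraMap F K (algebraMap k F u) = algebraMap k K u := rfl
  have h5 := Sp.res h2 (h4 _ θ (by rw [e1, e2, hθ]) fun w hw => hu w (Or.inr hw))
  have n0 := noroot_glob (hu w₀ (Or.inl rfl))
  rw [e1] at n0
  have m1 : minpoly F θ = _ := cp_min n0 (by rw [cp_aeval, e2, hθ])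
  refine ⟨u, θ, hθ, fun c e => n0 (algebraMap k F c) ((algebraMap F K).injective ?_),
    fun y hy => ?_, h5⟩
  · rw [map_cp, e2, map_zero, ← hθ, e]
    rfl
  · obtain ⟨r, hr⟩ := minpoly.exists_algEquiv_of_root' (K := F) (x := y)
      (Algebra.IsAlgebraic.isAlgebraic θ) (by rw [m1, cp_aeval, e2, hy])
    exact ⟨r.restrictScalars k, (h2 _).2 fun x hx => r.commutes ⟨x, hx⟩, hr⟩

/-- **BR3.** -/
theorem br3' {Γ : Subgroup (K ≃ₐ[k] K)} (h : PA Γ 3 A l) (hΓ : Op ⊤ fun σ => σ ∈ Γ)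
    (hi : Γ.index ≤ 2) (hn : Odd (Fintype.card n)) :
    ∃ (π : (K ≃ₐ[k] K) →* Equiv.Perm (Fin 3)) (t : Fin 3 → K), Function.Injective t ∧
      (∀ σ i, σ (t i) = t (π σ i)) ∧ (∀ σ, ∃ j, ∀ i, π σ i = i + j) ∧
      (∃ r ∈ Γ, π r = finRotate 3) ∧ Sp {σ | σ ∈ Γ ∧ π σ = 1} A := by
  have : CharZero K := charZero_of_injective_algebraMap (algebraMap k K).injective
  obtain ⟨u, θ, h1, h2, h3, h4⟩ := br3'' h hΓ hi hn
  obtain ⟨t, rfl, t1, t2, t3⟩ := cp_roots h1 h2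
  obtain ⟨π, p1, p2⟩ := cp_perm t1 t2 t3
  obtain ⟨r, r1, r2⟩ := h3 (t 1) (by rw [t3, sub_self, mul_zero, zero_mul])
  refine ⟨π, t, t1, p1, p2, ⟨r, r1, Equiv.ext fun i => ?_⟩,
    h4.mono fun σ s => ⟨s.1, (p1 σ 0).trans (by rw [s.2]; rfl)⟩⟩
  obtain ⟨j, hj⟩ := p2 r
  have e := t1 ((p1 r 0).symm.trans r2)
  rw [hj, zero_add] at e
  rw [finRotate_apply, hj, e]

/-- **BR3.** -/
theorem br3 {Γ : Subgroup (K ≃ₐ[k] K)} (h : PA Γ 3 A l) (hΓ : Op ⊤ fun σ => σ ∈ Γ)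
    (hi : Γ.index ≤ 2) (hn : Odd (Fintype.card n)) :
    ∃ π : (K ≃ₐ[k] K) →* Equiv.Perm (Fin 3), Op ⊤ (fun σ => π σ = 1) ∧ (∀ σ, π σ ^ 3 = 1) ∧
      (∃ r ∈ Γ, π r = finRotate 3) ∧ Sp {σ | σ ∈ Γ ∧ π σ = 1} A := by
  obtain ⟨π, t, h1, h2, h3, h4, h5⟩ := br3' h hΓ hi hn
  refine ⟨π, (Op.vec ⊤ t).imp fun σ _ e => Equiv.ext fun i => h1 ((h2 σ i).symm.trans
    (congrFun e i)), fun σ => Equiv.ext fun i => ?_, h4, h5⟩
  obtain ⟨j, hj⟩ := h3 σ
  simp only [pow_succ, pow_zero, one_mul, Equiv.Perm.mul_apply, hj, Equiv.Perm.one_apply]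
  exact (by decide : ∀ i j : Fin 3, i + j + j + j = i) i j

end

end Vale.Agent.P011LQ
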