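import Vale.Agent.P011LQ.Two
import Vale.Agent.P011.Pow.CentT
import Vale.Agent.P011.Pow.Numb
import Vale.Agent.P011.E6W.H196.KumFin

/-!
Open subgroups, actions on abstract vector spaces, and the choice of the quadratic extension.
-/

open Matrix Module NumberField IsDedekindDomain IntermediateField Polynomial

namespace Vale.Agent.P011LQ

open Vale.Agent.P011LD Vale.Agent.P011 Vale.Agent.P011.W Vale.Agent.P011.Arith

variable {k K : Type} [Field k] [Field K] [Algebra k K] {n : Type} [Fintype n] [DecidableEq n]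
  {p : ℕ} {A : (K ≃ₐ[k] K) → GL n K} {l : (K ≃ₐ[k] K) → K} {Γ : Subgroup (K ≃ₐ[k] K)}

/-- The fixed field of an open subgroup. -/
theorem exists_field [IsGalois k K] (h : Op ⊤ fun σ => σ ∈ Γ) : ∃ F : IntermediateField k K,
    FiniteDimensional k F ∧ finrank k F = Γ.index ∧ ∀ σ, σ ∈ Γ ↔ ∀ x ∈ F, σ x = x := by
  obtain ⟨S, hS⟩ := h
  have : FiniteDimensional k (adjoin k (S : Set K)) :=
    finiteDimensional_adjoin fun x _ => Algebra.IsIntegral.isIntegral x
  have h1 : IsOpen (Γ : Set (K ≃ₐ[k] K)) := Subgroup.isOpen_mono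
    (H₁ := (adjoin k (S : Set K)).fixingSubgroup) (fun σ s => hS σ trivial fun x hx => s ⟨x, subset_adjoin k _ hx⟩)
    (adjoin k (S : Set K)).fixingSubgroup_isOpen
  have h2 : (fixedField Γ).fixingSubgroup = Γ :=
    InfiniteGalois.fixingSubgroup_fixedField ⟨Γ, Γ.isClosed_of_isOpen h1⟩
  refine ⟨fixedField Γ, (InfiniteGalois.isOpen_iff_finite _).1 (by rw [h2]; exact h1),
    by rw [finrank_eq_fixingSubgroup_index, h2], fun σ => ?_⟩
  conv_lhs => rw [← h2]
  exact mem_fixingSubgroup_iff _ _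

theorem PA.res (h : PA Γ p A l) {F : IntermediateField k K} (hF : ∀ σ, σ ∈ Γ ↔ ∀ x ∈ F, σ x = x) :
    PA ⊤ p (fun τ : K ≃ₐ[F] K => A (τ.restrictScalars k)) fun τ => l (τ.restrictScalars k) :=
  have m : ∀ τ : K ≃ₐ[F] K, τ.restrictScalars k ∈ Γ := fun τ =>
    (hF _).2 fun x hx => τ.commutes ⟨x, hx⟩
  ⟨fun σ _ => h.ne _ (m σ), fun σ _ τ _ => h.mul _ (m σ) _ (m τ),
    h.cont.elim fun S hS => ⟨S, fun σ _ e => hS _ (m σ) e⟩⟩

theorem Sp.res {F : IntermediateField k K} (hF : ∀ σ, σ ∈ Γ ↔ ∀ x ∈ F, σ x = x) {r : K}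
    (h : Sp {τ | τ r = r} fun τ : K ≃ₐ[F] K => A (τ.restrictScalars k)) :
    Sp {σ | σ ∈ Γ ∧ σ r = r} A :=
  h.elim fun g hg => ⟨g, fun σ s =>
    hg (AlgEquiv.ofRingEquiv (f := σ.toRingEquiv) fun x => (hF σ).1 s.1 x.1 x.2) s.2⟩

/-- Descent data which keep a form up to scalars. -/
theorem PA.of_form (N : (n → K) → K) (hN : ∀ (c : K) v, N (c • v) = c ^ p * N v) {v₀ : n → K}
    (h0 : N v₀ ≠ 0) (h1 : ∀ σ ∈ Γ, l σ ≠ 0 ∧ ∀ v, N ((A σ).1 *ᵥ (σ ∘ v)) = l σ * σ (N v))
    (h2 : ∀ σ ∈ Γ, ∀ τ ∈ Γ, ∃ c : K, (A σ).1 * (A τ).1.map σ = c • (A (σ * τ)).1)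
    (h3 : Op Γ fun σ => ∃ c : K, (A σ).1 = c • 1) : PA Γ p A l := by
  refine ⟨fun σ s => (h1 σ s).1, fun σ s τ t => (h2 σ s τ t).imp fun c e => ⟨e, ?_⟩,
    (h3.and ((Op.vec Γ v₀).and (Op.fix Γ (N v₀)))).imp ?_⟩
  · have a1 := (h1 σ s).2 ((A τ).1 *ᵥ (τ ∘ v₀))
    rw [(h1 τ t).2, map_mv, mulVec_mulVec, e, smul_mulVec, hN, map_mul,
      show σ ∘ (τ ∘ v₀) = (σ * τ : K ≃ₐ[k] K) ∘ v₀ from rfl, (h1 _ (Γ.mul_mem s t)).2,
      AlgEquiv.mul_apply, ← mul_assoc, ← mul_assoc] at a1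
    exact (mul_right_cancel₀ (by simpa using h0) a1).symm
  · rintro σ s ⟨⟨c, e1⟩, e2, e3⟩
    have a1 := (h1 σ s).2 v₀
    rw [e1, e2, e3, smul_mulVec, one_mulVec, hN] at a1
    exact ⟨c, e1, (mul_right_cancel₀ h0 a1).symm⟩

/-- The matrices of semilinear bijections. -/
theorem exists_mat {V : Type} [AddCommGroup V] [Module K V] (b : (n → K) ≃ₗ[K] V)
    (f : (K ≃ₐ[k] K) → V → V) (hf : ∀ σ ∈ Γ, (∀ v w, f σ (v + w) = f σ v + f σ w) ∧
      (∀ (t : K) v, f σ (t • v) = σ t • f σ v) ∧ Function.Bijective (f σ)) :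
    ∃ A : (K ≃ₐ[k] K) → GL n K, ∀ σ ∈ Γ, ∀ v, b ((A σ).1 *ᵥ (σ ∘ v)) = f σ (b v) := by
  have : ∀ σ, ∃ g : GL n K, σ ∈ Γ → ∀ v, b (g.1 *ᵥ (σ ∘ v)) = f σ (b v) := fun σ => by
    by_cases s : σ ∈ Γ
    · obtain ⟨h1, h2, h3⟩ := hf σ s
      let T : (n → K) →ₗ[K] (n → K) :=
        { toFun := fun v => b.symm (f σ (b (σ.symm ∘ v)))
          map_add' := fun v w => by
            rw [← map_add, ← h1, ← map_add]
            exact congrArg (fun u => b.symm (f σ (b u))) (funext fun i => map_add σ.symm _ _)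
          map_smul' := fun c v => by
            have : σ.symm ∘ (c • v) = σ.symm c • (σ.symm ∘ v) :=
              funext fun i => map_mul σ.symm _ _
            rw [this, map_smul, h2, map_smul, σ.apply_symm_apply, RingHom.id_apply] }
      have hT : Function.Injective T := b.symm.injective.comp (h3.1.comp (b.injective.comp
        σ.symm.injective.comp_left))
      refine ⟨((Matrix.mulVec_injective_iff_isUnit (A := LinearMap.toMatrix' T)).1 (by
        intro v w e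
        rw [← toLin'_apply, ← toLin'_apply, toLin'_toMatrix'] at e
        exact hT e)).unit, fun _ v => ?_⟩
      rw [IsUnit.unit_spec, ← toLin'_apply, toLin'_toMatrix']
      exact (b.apply_symm_apply _).trans (congrArg (fun u => f σ (b u))
        (funext fun i => σ.symm_apply_apply _))
    · exact ⟨1, fun e => absurd e s⟩
  exact Classical.skolem.1 this

section

variable [NumberField k]

/-- Nonsquares in the completions of a cubic extension. -/
theorem exists_disc (F : Type) [Field F] [NumberField F] [Algebra k F] (hF : finrank k F ≤ 3) :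
    ∃ δ : kˣ, ∀ (w : HeightOneSpectrum (𝓞 F)) (v : HeightOneSpectrum (𝓞 k)),
      w.asIdeal.comap (algebraMap (𝓞 k) (𝓞 F)) = v.asIdeal → ∀ a : kˣ, a ∉ LS (v.valuation k) →
      δ * a ∉ LS (v.valuation k) →
      ¬IsSquare (algebraMap F (w.adicCompletion F) (algebraMap k F a)) := by
  classical
  have : FiniteDimensional k F := Module.Finite.of_restrictScalars_finite ℚ k F
  let pb := Field.powerBasisOfFiniteOfSeparable k F
  have h1 : ∀ x : F, ∃ c : ℕ → k, x = algebraMap k F (c 0) + algebraMap k F (c 1) * pb.gen +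
      algebraMap k F (c 2) * pb.gen ^ 2 := fun x => by
    obtain ⟨f, hf, rfl⟩ := pb.exists_eq_aeval x
    rw [aeval_eq_sum_range' (hf.trans_le (pb.finrank ▸ hF))]
    exact ⟨f.coeff, by simp [Finset.sum_range_succ, Algebra.smul_def]⟩
  obtain ⟨c, hc⟩ := h1 (pb.gen ^ 3)
  obtain ⟨δ, hδ⟩ : ∃ δ, δ = c 2 ^ 2 * c 1 ^ 2 + 4 * c 1 ^ 3 - 4 * c 2 ^ 3 * c 0 - 27 * c 0 ^ 2 -
    18 * c 2 * c 1 * c 0 := ⟨_, rfl⟩
  refine ⟨if e : δ = 0 then 1 else Units.mk0 δ e, fun w v hw a a1 a2 ⟨r, hr⟩ => ?_⟩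
  rw [← Even.isSquare_iff] at a1 a2
  obtain ⟨g, g1, g2⟩ := Pow.completion_map_cont hw
  let _ := Even.nnf v
  let _ : Algebra (v.adicCompletion k) (w.adicCompletion F) := g.toAlgebra
  have hsm : ∀ (c : v.adicCompletion k) (x : w.adicCompletion F), c • x = g c * x := fun _ _ => rfl
  have : ContinuousSMul (v.adicCompletion k) (w.adicCompletion F) :=
    ⟨(g1.comp continuous_fst).mul continuous_snd⟩
  set θ := algebraMap F (w.adicCompletion F) pb.gen with hθ
  set α := algebraMap k (v.adicCompletion k) a with hα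
  replace hr : g α = r * r := (g2 a).trans hr
  have ht : Submodule.span (v.adicCompletion k) (Set.range ![1, θ, θ ^ 2]) = ⊤ := by
    have := FiniteDimensional.span_of_finite (v.adicCompletion k) (Set.finite_range ![1, θ, θ ^ 2])
    refine eq_top_iff.2 fun x _ => (Submodule.closed_of_finiteDimensional _).closure_subset
      (Dense.mono ?_ (HeightOneSpectrum.denseRange_algebraMap F w) x)
    rintro _ ⟨y, rfl⟩
    obtain ⟨d, rfl⟩ := h1 y
    refine (Submodule.mem_span_range_iff_exists_fun _).2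
      ⟨fun i => algebraMap k _ (d i), ?_⟩
    simp [Fin.sum_univ_three, hsm, g2, hθ]
  have hfd : FiniteDimensional (v.adicCompletion k) (w.adicCompletion F) :=
    ⟨ht ▸ Submodule.fg_span (Set.finite_range _)⟩
  have h3 := finrank_le_of_span_eq_top ht
  have li : ∀ x y : v.adicCompletion k, g x + g y * r = 0 → x = 0 ∧ y = 0 := fun x y e => by
    have y0 : y = 0 := by
      by_contra y0
      have gy : g y ≠ 0 := (_root_.map_ne_zero g).2 y0
      refine a1 ⟨x / y, g.injective ?_⟩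
      rw [hr, map_mul, map_div₀, show g x = -(g y * r) by linear_combination e]
      field_simp
    rw [y0, map_zero, zero_mul, add_zero] at e
    exact ⟨g.injective (e.trans (map_zero g).symm), y0⟩
  have h4 : 2 ∣ finrank (v.adicCompletion k) (w.adicCompletion F) := by
    have hm : minpoly (v.adicCompletion k) r = X ^ 2 - C α :=
      (minpoly.eq_of_irreducible_of_monic (X_pow_sub_C_irreducible_of_prime Nat.prime_two
        fun b hb => a1 ⟨b, by rw [← hb, sq]⟩) (by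
          rw [map_sub, map_pow, aeval_X, aeval_C, sq, ← hr]; exact sub_self _)
        (monic_X_pow_sub_C α two_ne_zero)).symm
    have := minpoly.degree_dvd (Algebra.IsIntegral.isIntegral (R := v.adicCompletion k) r)
    rwa [hm, natDegree_X_pow_sub_C] at this
  have h5 : finrank (v.adicCompletion k) (w.adicCompletion F) = 2 := by
    have := finrank_pos (R := v.adicCompletion k) (M := w.adicCompletion F)
    rw [Fintype.card_fin] at h3
    omega
  have h6 := (LinearIndependent.pair_iff.2 fun x y e => li x y (by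
    simpa only [hsm, mul_one] using e) : LinearIndependent (v.adicCompletion k)
      ![1, r]).span_eq_top_of_card_eq_finrank (by simp [h5])
  obtain ⟨z, hz⟩ := (Submodule.mem_span_range_iff_exists_fun _).1 (h6 ▸ Submodule.mem_top (x := θ))
  obtain ⟨u, hu⟩ := (Submodule.mem_span_range_iff_exists_fun _).1 (ht ▸ Submodule.mem_top (x := r))
  simp only [Fin.sum_univ_two, Fin.sum_univ_three, hsm, cons_val_zero, cons_val_one, cons_val,
    mul_one] at hz hu
  have y0 : z 1 ≠ 0 := fun e => by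
    rw [← hz, e, map_zero, zero_mul, add_zero] at hu
    exact one_ne_zero (neg_eq_zero.1 (li (u 0 + u 1 * z 0 + u 2 * z 0 ^ 2) (-1) (by
      simp only [map_add, map_mul, map_pow, map_neg, map_one]; linear_combination hu)).2)
  have h7 := congrArg (algebraMap F (w.adicCompletion F)) hc
  simp only [map_add, map_mul, map_pow, ← g2, ← hθ, ← hz] at h7
  set c0 := algebraMap k (v.adicCompletion k) (c 0)
  set c1 := algebraMap k (v.adicCompletion k) (c 1)
  set c2 := algebraMap k (v.adicCompletion k) (c 2)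
  obtain ⟨p1, p2⟩ := li (z 0 ^ 3 + 3 * z 0 * z 1 ^ 2 * α - c2 * (z 0 ^ 2 + z 1 ^ 2 * α) -
      c1 * z 0 - c0) (z 1 * (3 * z 0 ^ 2 + z 1 ^ 2 * α - 2 * c2 * z 0 - c1)) (by
    simp only [map_add, map_mul, map_pow, map_sub, map_ofNat, hr]
    linear_combination h7)
  have p3 := (mul_eq_zero.1 p2).resolve_left y0
  have p4 : algebraMap k (v.adicCompletion k) δ * α =
      (2 * z 1 * α * ((3 * z 0 - c2) ^ 2 - z 1 ^ 2 * α)) ^ 2 := by
    have e1 : c1 = 3 * z 0 ^ 2 + z 1 ^ 2 * α - 2 * c2 * z 0 := by linear_combination -p3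
    have e0 : c0 = z 0 ^ 3 + 3 * z 0 * z 1 ^ 2 * α - c2 * (z 0 ^ 2 + z 1 ^ 2 * α) - c1 * z 0 := by
      linear_combination -p1
    rw [hδ]
    simp only [map_add, map_mul, map_pow, map_sub, map_ofNat]
    change (c2 ^ 2 * c1 ^ 2 + 4 * c1 ^ 3 - 4 * c2 ^ 3 * c0 - 27 * c0 ^ 2 - 18 * c2 * c1 * c0) * α = _
    rw [e0, e1]
    ring
  have : CharZero (v.adicCompletion k) :=
    charZero_of_injective_algebraMap (algebraMap k _).injective
  by_cases e : δ = 0
  · rw [e, map_zero, zero_mul] at p4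
    have p5 := pow_eq_zero_iff two_ne_zero |>.1 p4.symm
    have α0 : α ≠ 0 := (_root_.map_ne_zero _).2 a.ne_zero
    have p6 := (mul_eq_zero.1 p5).resolve_left (mul_ne_zero (mul_ne_zero two_ne_zero y0) α0)
    exact a1 ⟨(3 * z 0 - c2) / z 1, by field_simp; linear_combination -p6⟩
  · rw [dif_neg e, Units.val_mul, map_mul] at a2
    exact a2 ⟨_, p4.trans (sq _)⟩

/-- The choice of the quadratic extension. -/
theorem exists_a (F : Type) [Field F] [NumberField F] [Algebra k F] (hF : finrank k F ≤ 3)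
    {S : Set (HeightOneSpectrum (𝓞 F))} (hS : S.Finite) (M : Type) [Field M] [Algebra k M]
    [FiniteDimensional k M] (P : Set (k →+* ℝ)) :
    ∃ a : kˣ, (∀ w ∈ S, ¬IsSquare (algebraMap F (w.adicCompletion F) (algebraMap k F a))) ∧
      ¬IsSquare (algebraMap k M a) ∧ ∀ φ : k →+* ℝ, 0 < φ a ↔ φ ∈ P := by
  classical
  obtain ⟨δ, hδ⟩ := exists_disc (k := k) F hF
  obtain ⟨m, t, -, ht⟩ := E6W.H196.exists_classes (k := k) (M := M)
  have h1 := Pow.below_finite (F := k) hS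
  obtain ⟨v₀, h0⟩ := Pow.exists_out (h1.union (Set.finite_iUnion fun i =>
    finite_valuation_ne_one (t i : k) (t i).ne_zero))
  obtain ⟨π, hπ⟩ := v₀.valuation_exists_uniformizer k
  have π0 : π ≠ 0 := by
    rintro rfl
    exact WithZero.exp_ne_zero (hπ.symm.trans (map_zero _))
  choose u hu hu' using fun v : HeightOneSpectrum (𝓞 k) => One.exists_class v δ
  obtain ⟨a, h2, h3⟩ := weak_approx (h1.insert v₀).toFinset
    (fun v => if v = v₀ then Units.mk0 π π0 else u v) (fun φ => if φ ∈ P then 1 else -1)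
  have h4 : ∀ x : kˣ, v₀.valuation k x = 1 → ¬IsSquare ((a : k) * x) := by
    rintro x hx ⟨y, hy⟩
    obtain ⟨z, hz⟩ := LS_even (h2 v₀ (by simp))
    have y0 : y ≠ 0 := by
      rintro rfl
      exact mul_ne_zero a.ne_zero x.ne_zero (hy.trans (mul_zero _))
    have e := congrArg (v₀.valuation k) hy
    rw [if_pos rfl, Units.val_div_eq_div_val, map_div₀, Units.val_mk0, hπ,
      div_eq_iff WithZero.exp_ne_zero] at hz
    rw [map_mul, map_mul, hx, mul_one, hz,
      ← WithZero.exp_log ((Valuation.ne_zero_iff (v₀.valuation k)).2 y0),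
      ← WithZero.exp_log ((Valuation.ne_zero_iff (v₀.valuation k)).2 z.ne_zero), sq,
      ← WithZero.exp_add, ← WithZero.exp_add, ← WithZero.exp_add] at e
    have := WithZero.exp_injective e
    omega
  refine ⟨a, fun w hw => ?_, fun e => ?_, fun φ => ?_⟩
  · obtain ⟨v, hv⟩ := Arith.exists_below (F := k) w
    have a1 := h2 v ((Set.Finite.mem_toFinset _).2 (Or.inr ⟨w, hw, hv⟩))
    rw [if_neg (by rintro rfl; exact h0 (Or.inl ⟨w, hw, hv⟩))] at a1
    refine hδ w v hv a (fun e => hu v ?_) fun e => hu' v ?_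
    · simpa using mul_mem (inv_mem a1) e
    · have := mul_mem e (inv_mem a1)
      rwa [inv_div, mul_assoc, mul_div_cancel] at this
  · obtain ⟨i, hi⟩ := ht a (by simpa using h4 1 (map_one _)) e
    exact h4 _ (by_contra fun e' => h0 (Or.inr (Set.mem_iUnion.2 ⟨i, e'⟩))) hi
  · have := h3 φ
    by_cases e : φ ∈ P
    · simpa [e] using this
    · simpa [e] using (by simpa [e] using this : φ a < 0).le

variable [IsAlgClosure k K] [Nonempty n]

/-- **BR2** for matrices. -/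
theorem br2_mat (h : PA Γ 2 A l) (hΓ : Op ⊤ fun σ => σ ∈ Γ) (hi : Γ.index ≤ 3)
    {Γ' : Subgroup (K ≃ₐ[k] K)} (hΓ' : Op ⊤ fun σ => σ ∈ Γ') (P : Set (k →+* ℝ))
    (hP : ∀ φ ∈ P, ∀ (Ψ : K →+* ℂ) (κ : K ≃ₐ[k] K), (∀ x, Ψ (algebraMap k K x) = φ x) →
      (∀ x, Ψ (κ x) = starRingEnd ℂ (Ψ x)) → κ ∈ Γ →
      ∃ v : n → K, v ≠ 0 ∧ ∃ μ : K, (A κ).1 *ᵥ (κ ∘ v) = μ • v) :
    ∃ (a : k) (r : K), r ≠ 0 ∧ r ^ 2 = algebraMap k K a ∧ (∃ σ ∈ Γ', σ r = -r) ∧
      (∀ φ : k →+* ℝ, 0 < φ a ↔ φ ∈ P) ∧ Sp {σ | σ ∈ Γ ∧ σ r = r} A := by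
  have := IsAlgClosure.isAlgClosed k (K := K)
  have : IsGalois k K := ⟨⟩
  obtain ⟨F, _, h1, h2⟩ := exists_field hΓ
  obtain ⟨M, _, -, h3⟩ := exists_field hΓ'
  have : NumberField F := NumberField.of_module_finite k F
  have : IsAlgClosure F K := ⟨inferInstance, Algebra.IsAlgebraic.tower_top (K := k) F⟩
  obtain ⟨S, hS, h4⟩ := (h.res h2).two
  obtain ⟨a, a1, a2, a3⟩ := exists_a (k := k) F (h1 ▸ hi) hS M P
  obtain ⟨r, hr⟩ := IsAlgClosed.exists_pow_nat_eq (algebraMap k K a) two_pos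
  have r0 : r ≠ 0 := by
    rintro rfl
    exact (_root_.map_ne_zero _).2 a.ne_zero (hr.symm.trans (zero_pow two_ne_zero))
  refine ⟨a, r, r0, hr, ?_, a3, Sp.res h2 (h4 (algebraMap k F a) r hr a1 fun Ψ κ e1 e2 => ?_)⟩
  · by_contra hc
    refine a2 ⟨⟨r, ?_⟩, Subtype.ext (hr.symm.trans (sq r))⟩
    refine fixed_sub M fun σ s => ?_
    have e : σ r ^ 2 = r ^ 2 := by rw [← map_pow, hr, σ.commutes]
    exact (sq_eq_sq_iff_eq_or_eq_neg.1 e).resolve_right fun e' =>
      hc ⟨σ, (h3 σ).2 fun x hx => s ⟨x, hx⟩, e'⟩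
  · have re : ∀ x, κ x = x → ((Ψ x).re : ℂ) = Ψ x := fun x e =>
      Complex.conj_eq_iff_re.1 ((e1 x).symm.trans (congrArg Ψ e))
    obtain ⟨φ, hφ⟩ := descend (Ψ.comp (algebraMap k K)) Complex.ofRealHom Complex.ofReal_injective
      fun x => ⟨_, re _ ((κ.restrictScalars k).commutes x)⟩
    refine hP φ ((a3 φ).1 ?_) Ψ (κ.restrictScalars k) (fun x => (hφ x).symm) e1
      ((h2 _).2 fun x hx => κ.commutes ⟨x, hx⟩)
    have e3 : φ a = (Ψ r).re ^ 2 := Complex.ofReal_injective ((hφ a).trans (by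
      rw [Complex.ofReal_pow, re r e2, ← map_pow, hr]; rfl))
    exact lt_of_le_of_ne (e3 ▸ sq_nonneg _) ((_root_.map_ne_zero φ).2 a.ne_zero).symm

end

end Vale.Agent.P011LQ
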