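import Vale.Agent.P011LD.H90
import Vale.Agent.P011.W.Part
import Mathlib.LinearAlgebra.GeneralLinearGroup.AlgEquiv

/-!
Projective semilinear actions and the central simple algebras of their fixed points.
-/

open Matrix Module

namespace Vale.Agent.P011LQ

open Vale.Agent.P011LD Vale.Agent.P011.W

variable {k K : Type} [Field k] [Field K] [Algebra k K] {n : Type} [Fintype n] [DecidableEq n]

/-- A projective semilinear action `v ↦ A σ * σ v` whose scalar cocycle is killed by `p`. -/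
structure PA (Γ : Subgroup (K ≃ₐ[k] K)) (p : ℕ) (A : (K ≃ₐ[k] K) → GL n K)
    (l : (K ≃ₐ[k] K) → K) : Prop where
  ne : ∀ σ ∈ Γ, l σ ≠ 0
  mul : ∀ σ ∈ Γ, ∀ τ ∈ Γ, ∃ c : K, (A σ).1 * (A τ).1.map σ = c • (A (σ * τ)).1 ∧
    l σ * σ (l τ) = c ^ p * l (σ * τ)
  cont : Op Γ fun σ => ∃ c : K, (A σ).1 = c • 1 ∧ l σ = c ^ p

/-- The projective action is conjugate to the standard one. -/
def Sp (Γ : Set (K ≃ₐ[k] K)) (A : (K ≃ₐ[k] K) → GL n K) : Prop :=
  ∃ g : GL n K, ∀ σ ∈ Γ, ∃ μ : K, (A σ).1 * g.1.map σ = μ • g.1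

/-- The algebra of the fixed points. -/
def A0 (A : (K ≃ₐ[k] K) → GL n K) : Subalgebra k (Matrix n n K) where
  carrier := {M | ∀ σ : K ≃ₐ[k] K, (A σ).1 * M.map σ = M * (A σ).1}
  mul_mem' := fun {M N} hM hN σ => by
    rw [map_mul', ← Matrix.mul_assoc, hM σ, Matrix.mul_assoc, hN σ, Matrix.mul_assoc]
  add_mem' := fun {M N} hM hN σ => by
    rw [Matrix.map_add _ (map_add σ), Matrix.mul_add, Matrix.add_mul, hM σ, hN σ]
  algebraMap_mem' := fun c σ => by
    rw [Algebra.algebraMap_eq_smul_one, ← algebraMap_smul K, P011LD.map_smul', map_one', σ.commutes,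
      Matrix.mul_smul, Matrix.smul_mul, Matrix.mul_one, Matrix.one_mul]

/-- The subalgebra `S` is a form of the matrix algebra. -/
def Frm (S : Subalgebra k (Matrix n n K)) : Prop :=
  ∃ b : Basis (n × n) K (Matrix n n K), (∀ i, b i ∈ S) ∧
    ∀ x ∈ S, ∀ i, ∃ c : k, algebraMap k K c = b.repr x i

theorem PA.frm [IsGalois k K] [Nonempty n] {p : ℕ} {A : (K ≃ₐ[k] K) → GL n K}
    {l : (K ≃ₐ[k] K) → K} (h : PA ⊤ p A l) : Frm (A0 A) := by
  have S := sl_hom A A (fun σ s τ t => (h.mul σ s τ t).imp fun c e => ⟨e.1, e.1⟩)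
    (h.cont.imp fun σ _ e => e.imp fun c e => ⟨e.1, e.1⟩)
  obtain ⟨b, hb⟩ := S.basis (ι := n × n) (by simp [Module.finrank_matrix])
  refine ⟨b, fun i σ => ?_, fun x hx i => fixed_top fun σ => ?_⟩
  · conv_rhs => rw [← hb i σ trivial]
    rw [Matrix.mul_assoc, Units.inv_mul, Matrix.mul_one]
  · have h1 : (A σ).1 * x.map σ * (A σ)⁻¹.1 = x := by
      rw [hx σ, Matrix.mul_assoc, Units.mul_inv, Matrix.mul_one]
    have h2 := S.sum (σ := σ) trivial Finset.univ fun i => b.repr x i • b i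
    simp only [b.sum_repr, h1, S.smul σ trivial, hb _ σ trivial] at h2
    conv_rhs => rw [h2]
    rw [b.repr_sum_self]

section

variable {S : Subalgebra k (Matrix n n K)} {Ω : Type} [Field Ω]

omit [Fintype n] [DecidableEq n] in
theorem map_sum_smul (ι : K →+* Ω) {J : Type} [Fintype J] (c : J → K) (b : J → Matrix n n K) :
    (∑ i, c i • b i).map ι = ∑ i, ι (c i) • (b i).map ι := by
  ext i j
  simp [Matrix.sum_apply]

theorem span_map (ι : K →+* Ω) (b : Basis (n × n) K (Matrix n n K)) :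
    ⊤ ≤ Submodule.span Ω (Set.range fun i => (b i).map ι) := by
  intro M _
  rw [Matrix.matrix_eq_sum_single M]
  refine Submodule.sum_mem _ fun i _ => Submodule.sum_mem _ fun j _ => ?_
  have h1 : single i j (M i j) = M i j • (single i j (1 : K)).map ι := by
    rw [Matrix.map_single, map_one, Matrix.smul_single, smul_eq_mul, mul_one]
  rw [h1, ← b.sum_repr (single i j 1), map_sum_smul]
  exact Submodule.smul_mem _ _ (Submodule.sum_mem _ fun l _ =>
    Submodule.smul_mem _ _ (Submodule.subset_span ⟨l, rfl⟩))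

/-- The centralizer of a form consists of scalars. -/
theorem Frm.scalar (h : Frm S) (ι : K →+* Ω) {M : Matrix n n Ω}
    (hM : ∀ x ∈ S, M * x.map ι = x.map ι * M) : ∃ c : Ω, M = c • 1 := by
  obtain ⟨b, h1, -⟩ := h
  have h2 : ∀ N ∈ Submodule.span Ω (Set.range fun i => (b i).map ι), M * N = N * M := by
    intro N hN
    induction hN using Submodule.span_induction with
    | mem x hx => obtain ⟨i, rfl⟩ := hx; exact hM _ (h1 i)
    | zero => simp
    | add x y _ _ hx hy => rw [Matrix.mul_add, Matrix.add_mul, hx, hy]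
    | smul c x _ hx => rw [Matrix.mul_smul, Matrix.smul_mul, hx]
  obtain ⟨c, hc⟩ := mem_range_scalar_iff_commute_single'.2 fun i j =>
    (h2 (single i j 1) (span_map ι b trivial)).symm
  exact ⟨c, by rw [← hc, scalar_apply, smul_one_eq_diagonal]⟩

/-- All representations of a form are conjugate. -/
theorem Frm.conj [Nonempty n] (h : Frm S) (ι : K →+* Ω) (ψ : S →+* Matrix n n Ω)
    (hψ : ∀ c : k, ψ (algebraMap k S c) = ι (algebraMap k K c) • 1) :
    ∃ g : GL n Ω, ∀ x : S, x.1.map ι * g.1 = g.1 * ψ x := by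
  obtain ⟨b, h1, h2⟩ := h
  let b' : Basis (n × n) Ω (Matrix n n Ω) := basisOfTopLeSpanOfCardEqFinrank _ (span_map ι b)
    (by simp [Module.finrank_matrix])
  have hb : ∀ i, b' i = (b i).map ι := fun i =>
    congrFun (coe_basisOfTopLeSpanOfCardEqFinrank _ _ _) i
  let Φ := b'.constr Ω fun i => ψ ⟨b i, h1 i⟩
  have hΦ : ∀ x : S, Φ (x.1.map ι) = ψ x := fun x => by
    choose c hc using h2 x.1 x.2
    have e : x = ∑ i, algebraMap k S (c i) * ⟨b i, h1 i⟩ := Subtype.ext (by
      conv_lhs => rw [← b.sum_repr x.1]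
      simp only [← hc, algebraMap_smul, ← Algebra.smul_def, AddSubmonoidClass.coe_finsetSum,
        Subalgebra.coe_smul])
    conv_lhs => rw [← b.sum_repr x.1, map_sum_smul]
    conv_rhs => rw [e]
    simp only [map_sum, map_smul, map_mul, hψ, ← hb, ← hc, Φ, Basis.constr_basis, Matrix.smul_mul,
      Matrix.one_mul]
  have hm : (LinearMap.mul Ω (Matrix n n Ω)).compr₂ Φ =
      (LinearMap.mul Ω (Matrix n n Ω)).compl₁₂ Φ Φ := b'.ext fun i => b'.ext fun j => by
    have := hΦ (⟨b i, h1 i⟩ * ⟨b j, h1 j⟩)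
    rw [map_mul, ← hΦ, ← hΦ, Subalgebra.coe_mul, Matrix.map_mul] at this
    simpa [hb] using this
  let Ψ : Matrix n n Ω →ₐ[Ω] Matrix n n Ω := AlgHom.ofLinearMap Φ
    (by simpa using hΦ 1) fun x y => LinearMap.congr_fun₂ hm x y
  have hi : Function.Injective Ψ := Ψ.toRingHom.injective
  let e := AlgEquiv.ofBijective Ψ ⟨hi, (LinearMap.injective_iff_surjective (f := Φ)).1 hi⟩
  obtain ⟨T, hT⟩ := ((toLinAlgEquiv' (R := Ω) (n := n)).symm.trans
    (e.trans toLinAlgEquiv')).eq_linearEquivConjAlgEquiv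
  refine ⟨⟨LinearMap.toMatrix' T.symm.toLinearMap, LinearMap.toMatrix' T.toLinearMap, ?_, ?_⟩,
    fun x => ?_⟩
  · rw [← LinearMap.toMatrix'_comp]; simp
  · rw [← LinearMap.toMatrix'_comp]; simp
  · have := DFunLike.congr_fun hT (toLinAlgEquiv' (x.1.map ι))
    rw [AlgEquiv.trans_apply, AlgEquiv.symm_apply_apply, AlgEquiv.trans_apply,
      LinearEquiv.conjAlgEquiv_apply] at this
    have h3 : e (x.1.map ι) = ψ x := hΦ x
    rw [h3] at this
    apply Matrix.toLin'.injective
    rw [Matrix.toLin'_mul, Matrix.toLin'_mul, Matrix.toLin'_toMatrix']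
    have h4 : Matrix.toLin' (ψ x) = toLinAlgEquiv' (ψ x) := rfl
    rw [h4, this]
    ext v
    simp [toLinAlgEquiv'_apply]

theorem Frm.simple [Nonempty n] (h : Frm S) : IsSimpleRing S := by
  obtain ⟨b, h1, h2⟩ := h
  obtain ⟨la, hla⟩ := (Algebra.linearMap k K).exists_leftInverse_of_injective
    (LinearMap.ker_eq_bot.2 (algebraMap k K).injective)
  have la1 : ∀ c : k, la (algebraMap k K c) = c := fun c => LinearMap.congr_fun hla c
  let La : Matrix n n K → S := fun M => ∑ i, la (b.repr M i) • ⟨b i, h1 i⟩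
  have e1 : ∀ M N, La (M + N) = La M + La N := fun M N => by
    simp only [La, map_add, Finsupp.add_apply, add_smul, Finset.sum_add_distrib]
  have e2 : ∀ (c : K) (y : S), La (c • y.1) = la c • y := fun c y => Subtype.ext (by
    choose d hd using h2 y.1 y.2
    conv_rhs => rw [Subalgebra.coe_smul, ← b.sum_repr y.1]
    simp only [La, map_smul, Finsupp.smul_apply, ← hd, smul_eq_mul, Finset.smul_sum,
      AddSubmonoidClass.coe_finsetSum, Subalgebra.coe_smul, algebraMap_smul, smul_smul]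
    exact Finset.sum_congr rfl fun i _ => by
      rw [mul_comm c, ← Algebra.smul_def, map_smul, smul_eq_mul, mul_comm])
  refine IsSimpleRing.of_eq_bot_or_eq_top fun I => or_iff_not_imp_left.2 fun hI => ?_
  obtain ⟨x, hx, x0⟩ : ∃ x ∈ I, x ≠ 0 := by
    by_contra hc
    exact hI (eq_bot_iff.2 fun x hx => by
      by_contra e
      exact hc ⟨x, hx, e⟩)
  let U : Submodule K (Matrix n n K) := Submodule.span K ((fun y : S => y.1) '' I)
  have u1 : ∀ M ∈ U, ∀ c : K, La (c • M) ∈ I := fun M hM => by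
    induction hM using Submodule.span_induction with
    | mem y hy =>
      obtain ⟨y, hy, rfl⟩ := hy
      intro c
      rw [e2, Algebra.smul_def]
      exact I.mul_mem_left _ _ hy
    | zero =>
      intro c
      simp only [La, smul_zero, map_zero, Finsupp.zero_apply, zero_smul, Finset.sum_const_zero]
      exact I.zero_mem
    | add y z _ _ hy hz => intro c; rw [smul_add, e1]; exact I.add_mem (hy c) (hz c)
    | smul d y _ hy => intro c; rw [smul_smul]; exact hy _
  have u2 : ∀ M ∈ U, ∀ N, N * M ∈ U ∧ M * N ∈ U := fun M hM N => by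
    induction hM using Submodule.span_induction with
    | mem y hy =>
      obtain ⟨y, hy, rfl⟩ := hy
      rw [← b.sum_repr N, Finset.sum_mul, Finset.mul_sum]
      refine ⟨U.sum_mem fun i _ => ?_, U.sum_mem fun i _ => ?_⟩
      · rw [Matrix.smul_mul]
        exact U.smul_mem _ (Submodule.subset_span ⟨_, I.mul_mem_left ⟨b i, h1 i⟩ _ hy, rfl⟩)
      · rw [Matrix.mul_smul]
        exact U.smul_mem _ (Submodule.subset_span ⟨_, I.mul_mem_right _ ⟨b i, h1 i⟩ hy, rfl⟩)
    | zero => simp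
    | add y z _ _ hy hz =>
      rw [Matrix.mul_add, Matrix.add_mul]
      exact ⟨U.add_mem hy.1 hz.1, U.add_mem hy.2 hz.2⟩
    | smul d y _ hy =>
      rw [Matrix.mul_smul, Matrix.smul_mul]
      exact ⟨U.smul_mem _ hy.1, U.smul_mem _ hy.2⟩
  have u3 := IsSimpleRing.one_mem_of_ne_zero_mem (TwoSidedIdeal.mk' (U : Set (Matrix n n K))
    U.zero_mem U.add_mem U.neg_mem (fun hy => (u2 _ hy _).1) fun hy => (u2 _ hy _).2)
    (x := x.1) (fun e => x0 (Subtype.ext e))
    ((TwoSidedIdeal.mem_mk' ..).2 (Submodule.subset_span ⟨x, hx, rfl⟩))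
  have u4 := u1 _ ((TwoSidedIdeal.mem_mk' ..).1 u3) 1
  have u5 := e2 1 1
  rw [← map_one (algebraMap k K), la1, one_smul] at u5
  rw [← I.one_mem_iff, ← u5, map_one]
  exact u4

/-- The basis over the ground field. -/
theorem Frm.finrank (h : Frm S) : FiniteDimensional k S ∧ finrank k S = Fintype.card n ^ 2 := by
  obtain ⟨b, h1, h2⟩ := h
  have li : LinearIndependent k fun i => (⟨b i, h1 i⟩ : S) :=
    LinearIndependent.of_comp S.val.toLinearMap (b.linearIndependent.restrict_scalars' k)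
  have sp : ⊤ ≤ Submodule.span k (Set.range fun i => (⟨b i, h1 i⟩ : S)) := fun x _ => by
    choose c hc using h2 x.1 x.2
    have e : x = ∑ i, c i • (⟨b i, h1 i⟩ : S) := Subtype.ext (by
      conv_lhs => rw [← b.sum_repr x.1]
      simp only [← hc, algebraMap_smul, AddSubmonoidClass.coe_finsetSum, Subalgebra.coe_smul])
    rw [e]
    exact Submodule.sum_mem _ fun i _ => Submodule.smul_mem _ _ (Submodule.subset_span ⟨i, rfl⟩)
  refine ⟨Module.Finite.of_basis (Basis.mk li sp), ?_⟩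
  rw [finrank_eq_card_basis (Basis.mk li sp), Fintype.card_prod, pow_two]

/-- The division algebra of a form. -/
theorem Frm.wed [Nonempty n] [CharZero K] [IsGalois k K] (h : Frm S) :
    ∃ (s d : ℕ) (_ : NeZero s) (D : Type) (_ : DivisionRing D) (_ : Algebra k D)
      (_ : FiniteDimensional k D) (_ : Algebra.IsCentral k D)
      (_ : S ≃ₐ[k] Matrix (Fin s) (Fin s) D), s * d = Fintype.card n ∧
      Module.finrank k D = d ^ 2 := by
  have := h.simple
  obtain ⟨_, hr⟩ := h.finrank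
  have : IsArtinianRing S := IsArtinianRing.of_finite k _
  obtain ⟨s, hs, D, i1, i2, i3, ⟨ψ⟩⟩ := IsSimpleRing.exists_algEquiv_matrix_divisionRing_finite k S
  have hcen : Algebra.IsCentral k D := by
    refine ⟨fun c hc => ?_⟩
    rw [Subalgebra.mem_center_iff] at hc
    obtain ⟨e, he⟩ := h.scalar (RingHom.id K) (M := (ψ.symm (Matrix.scalar (Fin s) c)).1)
      fun x hx => by
        have : ψ.symm (Matrix.scalar (Fin s) c) * ⟨x, hx⟩ =
            ⟨x, hx⟩ * ψ.symm (Matrix.scalar (Fin s) c) := ψ.injective (by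
          rw [map_mul, map_mul, ψ.apply_symm_apply]
          ext i j
          rw [Matrix.scalar_apply, Matrix.mul_diagonal, Matrix.diagonal_mul]
          exact (hc _).symm)
        exact congrArg Subtype.val this
    obtain ⟨b, -, h2⟩ := h
    obtain ⟨i, hi⟩ : ∃ i, b.repr 1 i ≠ 0 := by
      by_contra hc
      refine one_ne_zero (b.repr.injective (Finsupp.ext fun i => ?_) : (1 : Matrix n n K) = 0)
      by_contra e
      exact hc ⟨i, by simpa using e⟩
    obtain ⟨x, hx⟩ := h2 _ (ψ.symm (Matrix.scalar (Fin s) c)).2 i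
    obtain ⟨y, hy⟩ := h2 _ S.one_mem i
    rw [he, map_smul, Finsupp.smul_apply, smul_eq_mul] at hx
    have h3 : algebraMap k K (x / y) = e := by rw [map_div₀, hx, hy, mul_div_cancel_right₀ _ hi]
    have h1 : Matrix.scalar (Fin s) c = algebraMap k (Matrix (Fin s) (Fin s) D) (x / y) := by
      rw [← ψ.apply_symm_apply (Matrix.scalar (Fin s) c), ← ψ.commutes]
      congr 1
      exact Subtype.ext (by
        rw [he, ← h3, algebraMap_smul, Algebra.algebraMap_eq_smul_one]; rfl)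
    have h2 := congrFun (congrFun h1 0) 0
    rw [Matrix.scalar_apply, Matrix.diagonal_apply_eq, Matrix.algebraMap_matrix_apply,
      if_pos rfl] at h2
    exact Algebra.mem_bot.2 ⟨_, h2.symm⟩
  have h2 := P011S.corner_dim (((Matrix.reindexAlgEquiv k K (Fintype.equivFin n)).toAlgHom.comp
    S.val).comp ψ.symm.toAlgHom)
  refine ⟨s, _, hs, D, i1, i2, i3, hcen, ψ, h2, ?_⟩
  have h1 := ψ.toLinearEquiv.finrank_eq
  rw [hr, Module.finrank_matrix, Fintype.card_fin, ← h2, mul_pow, ← pow_two] at h1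
  exact (Nat.eq_of_mul_eq_mul_left (pow_pos (NeZero.pos s) 2) h1).symm

/-- Representations of the form and splittings of its division algebra. -/
theorem rep_iff {s d : ℕ} [NeZero s] {D : Type} [DivisionRing D] [Algebra k D] [CharZero Ω]
    (e : S ≃ₐ[k] Matrix (Fin s) (Fin s) D) (hs : s * d = Fintype.card n) (φ : k →+* Ω) :
    Spl D d φ ↔ ∃ ψ : S →+* Matrix n n Ω, ∀ c : k, ψ (algebraMap k S c) = φ c • 1 := by
  let _ : Algebra k Ω := φ.toAlgebra
  have e1 : Spl D d φ ↔ Nonempty (D →ₐ[k] Matrix (Fin d) (Fin d) Ω) := spl_iff (F := k) (R := Ω)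
  rw [e1]
  constructor
  · rintro ⟨f⟩
    let g : S →ₐ[k] Matrix n n Ω := ((Matrix.reindexAlgEquiv k Ω (Fintype.equivOfCardEq
      (by simp [hs]))).toAlgHom.comp ((Matrix.compAlgEquiv (Fin s) (Fin d) Ω k).toAlgHom.comp
      (f.mapMatrix : Matrix (Fin s) (Fin s) D →ₐ[k] _))).comp e.toAlgHom
    exact ⟨g, fun c => (g.commutes c).trans (by
      rw [Algebra.algebraMap_eq_smul_one, ← algebraMap_smul Ω]; rfl)⟩
  · rintro ⟨ψ, hψ⟩
    let g : S →ₐ[k] Matrix n n Ω := ⟨ψ, fun c => (hψ c).trans (by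
      rw [Algebra.algebraMap_eq_smul_one, ← algebraMap_smul Ω]; rfl)⟩
    obtain ⟨f, -⟩ := P011S.exists_corner (((Matrix.reindexAlgEquiv k Ω
      (Fintype.equivFin n)).toAlgHom.comp g).comp e.symm.toAlgHom) hs
    exact ⟨f⟩

end

/-- A representation over a subfield splits the action. -/
theorem sp_of_rep [Nonempty n] {A : (K ≃ₐ[k] K) → GL n K} (h : Frm (A0 A)) {L : Type} [Field L]
    (j : L →+* K) (ψ : A0 A →+* Matrix n n L) (φ : k →+* L) (hj : ∀ c, j (φ c) = algebraMap k K c)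
    (hψ : ∀ c : k, ψ (algebraMap k _ c) = φ c • 1) : Sp {σ | ∀ x, σ (j x) = j x} A := by
  obtain ⟨g, hg⟩ := h.conj (RingHom.id K) (j.mapMatrix.comp ψ) fun c => by
    rw [RingHom.comp_apply, hψ, RingHom.id_apply, ← hj]
    ext a b
    simp [Matrix.one_apply, apply_ite j]
  refine ⟨g, fun σ hσ => ?_⟩
  have i1 : g.1.map σ * g⁻¹.1.map σ = 1 := by rw [← map_mul', Units.mul_inv, map_one']
  obtain ⟨μ, hμ⟩ := h.scalar (RingHom.id K) (M := (A σ).1 * g.1.map σ * g⁻¹.1) fun x hx => by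
    have h1 : x * g.1 = g.1 * (ψ ⟨x, hx⟩).map j := hg ⟨x, hx⟩
    have h2 := congrArg (fun M => M.map σ) h1
    have h3 : ((ψ ⟨x, hx⟩).map j).map σ = (ψ ⟨x, hx⟩).map j := Matrix.ext fun a b => hσ _
    simp only [map_mul', h3] at h2
    have h4 : g⁻¹.1 * x = (ψ ⟨x, hx⟩).map j * g⁻¹.1 := by
      rw [Units.eq_mul_inv_iff_mul_eq, Matrix.mul_assoc, h1, Units.inv_mul_cancel_left]
    show _ * x = x * _
    rw [Matrix.mul_assoc, h4, ← Matrix.mul_assoc, Matrix.mul_assoc (A σ).1, ← h2,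
      ← Matrix.mul_assoc, hx σ]
    simp only [Matrix.mul_assoc]
  exact ⟨μ, by rw [← Matrix.one_mul g.1, ← Matrix.smul_mul, ← hμ, Matrix.one_mul,
    Units.inv_mul_cancel_right]⟩

end Vale.Agent.P011LQ
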