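import Vale.Agent.P011LQ.Alg

/-!
The exponent of a projective action bounds the exponent of the cyclic algebras attached to it.
-/

open Matrix Module

namespace Vale.Agent.P011LQ

open Vale.Agent.P011LD

variable {k K : Type} [Field k] [Field K] [Algebra k K] {n : Type} [Fintype n] [DecidableEq n]
  {Γ : Subgroup (K ≃ₐ[k] K)} {p : ℕ} {A : (K ≃ₐ[k] K) → GL n K} {l : (K ≃ₐ[k] K) → K}

theorem op_mono {Γ' : Subgroup (K ≃ₐ[k] K)} {P : (K ≃ₐ[k] K) → Prop} (h : Op Γ P) (i : Γ' ≤ Γ) :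
    Op Γ' P := h.elim fun S hS => ⟨S, fun σ s => hS σ (i s)⟩

theorem PA.mono (h : PA Γ p A l) {Γ' : Subgroup (K ≃ₐ[k] K)} (i : Γ' ≤ Γ) : PA Γ' p A l :=
  ⟨fun σ s => h.ne σ (i s), fun σ s τ t => h.mul σ (i s) τ (i t), op_mono h.cont i⟩

theorem PA.twist (h : PA Γ p A l) {y : K} (hy : y ≠ 0) : PA Γ p A fun σ => l σ * σ y / y := by
  have h0 : ∀ σ : K ≃ₐ[k] K, σ y ≠ 0 := fun σ => (_root_.map_ne_zero σ).2 hy
  refine ⟨fun σ s => div_ne_zero (mul_ne_zero (h.ne σ s) (h0 σ)) hy, fun σ s τ t =>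
    (h.mul σ s τ t).imp fun c e => ⟨e.1, ?_⟩, (h.cont.and (Op.fix Γ y)).imp fun σ _ e =>
      e.1.imp fun c e' => ⟨e'.1, by rw [e.2, e'.2, mul_div_cancel_right₀ _ hy]⟩⟩
  have := h0 σ
  rw [map_div₀, map_mul, AlgEquiv.mul_apply, ← mul_div_assoc, ← mul_div_assoc, ← mul_assoc (c ^ p),
    ← e.2]
  field_simp

theorem gl_ne [Nonempty n] (g : GL n K) : g.1 ≠ 0 := g.ne_zero

/-- The group of the scalar multiples of the operators, with their multipliers. -/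
def Tr (p : ℕ) (A : (K ≃ₐ[k] K) → GL n K) (l : (K ≃ₐ[k] K) → K) (σ : K ≃ₐ[k] K)
    (M : Matrix n n K) (x : K) : Prop := ∃ c : K, c ≠ 0 ∧ M = c • (A σ).1 ∧ x = c ^ p * l σ

theorem Tr.uniq [Nonempty n] {σ : K ≃ₐ[k] K} {M : Matrix n n K} {x y : K} (h : Tr p A l σ M x)
    (h' : Tr p A l σ M y) : x = y := by
  obtain ⟨c, -, h1, h2⟩ := h
  obtain ⟨d, -, h3, h4⟩ := h'
  rw [h2, h4, smul_left_injective K (gl_ne (A σ)) (h1.symm.trans h3)]

theorem Tr.smul {σ : K ≃ₐ[k] K} {M : Matrix n n K} {x : K} (h : Tr p A l σ M x) {d : K}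
    (hd : d ≠ 0) : Tr p A l σ (d • M) (d ^ p * x) :=
  h.elim fun c e => ⟨d * c, mul_ne_zero hd e.1, by rw [e.2.1, smul_smul],
    by rw [e.2.2, mul_pow, mul_assoc]⟩

theorem PA.tr_mul [Nonempty n] (h : PA Γ p A l) {σ τ : K ≃ₐ[k] K} (s : σ ∈ Γ) (t : τ ∈ Γ)
    {M N : Matrix n n K} {x y : K} (h1 : Tr p A l σ M x) (h2 : Tr p A l τ N y) :
    Tr p A l (σ * τ) (M * N.map σ) (x * σ y) := by
  obtain ⟨c, c0, rfl, rfl⟩ := h1
  obtain ⟨d, d0, rfl, rfl⟩ := h2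
  obtain ⟨e, e1, e2⟩ := h.mul σ s τ t
  refine ⟨c * σ d * e, mul_ne_zero (mul_ne_zero c0 ((_root_.map_ne_zero σ).2 d0)) ?_, ?_, ?_⟩
  · rintro rfl
    exact gl_ne (A σ * GeneralLinearGroup.map (σ : K →+* K) (A τ)) (e1.trans (zero_smul _ _))
  · rw [P011LD.map_smul', Matrix.smul_mul, Matrix.mul_smul, e1, smul_smul, smul_smul]
  · rw [map_mul, map_pow, mul_pow, mul_pow]
    linear_combination c ^ p * σ d ^ p * e2

theorem tr_of [Nonempty n] {σ : K ≃ₐ[k] K} {c : K} (h : (A σ).1 = c • 1) :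
    Tr p A l σ 1 (c⁻¹ ^ p * l σ) := by
  have c0 : c ≠ 0 := by
    rintro rfl
    exact gl_ne (A σ) (h.trans (zero_smul _ _))
  exact ⟨c⁻¹, inv_ne_zero c0, by rw [h, smul_smul, inv_mul_cancel₀ c0, one_smul], rfl⟩

theorem PA.core [Nonempty n] [Algebra.IsAlgebraic k K] (h : PA ⊤ p A l) (Γ : Subgroup (K ≃ₐ[k] K))
    (h1 : ∀ τ ∈ Γ, ∃ c : K, (A τ).1 = c • 1) {s : K ≃ₐ[k] K} (hs : ∀ τ ∈ Γ, s⁻¹ * τ * s ∈ Γ)
    {m : ℕ} (hm : s ^ m ∈ Γ) {Q : Matrix n n K} {b : K} (hb : b ≠ 0) (hQ : Q = b • (A s).1)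
    (hQ1 : ∀ τ ∈ Γ, Q.map τ = Q) (hQ2 : Q.map s = Q) {γ : K} (γ0 : γ ≠ 0) (hγ : Q ^ m = γ • 1) :
    ∃ ν : K, (∀ τ ∈ Γ, τ ν = ν) ∧ ∏ i ∈ Finset.range m, (s ^ i) ν = γ ^ p := by
  have h2 : ∀ τ, ∃ x, τ ∈ Γ → Tr p A l τ 1 x := fun τ => by
    by_cases e : τ ∈ Γ
    · exact (h1 τ e).elim fun c hc => ⟨_, fun _ => tr_of hc⟩
    · exact ⟨1, fun e' => absurd e' e⟩
  choose z hz using h2
  obtain ⟨y, y0, hy⟩ := h90_one (Γ := Γ) z (fun σ a τ t => (hz _ (Γ.mul_mem a t)).uniq (by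
    simpa only [map_one', Matrix.mul_one] using h.tr_mul trivial trivial (hz σ a) (hz τ t)))
    ((op_mono h.cont le_top).imp fun σ a e => e.elim fun c hc => by
      obtain ⟨d, d0, d1, -⟩ := tr_of (p := p) (l := l) hc.1
      have c0 : c ≠ 0 := by
        rintro rfl
        exact gl_ne (A σ) (hc.1.trans (zero_smul _ _))
      rw [(hz σ a).uniq (tr_of hc.1), hc.2, ← mul_pow, inv_mul_cancel₀ c0, one_pow])
  have H := h.twist y0
  have t1 : ∀ τ ∈ Γ, Tr p A (fun σ => l σ * σ y / y) τ 1 1 := fun τ t => by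
    obtain ⟨c, c0, c1, c2⟩ := hz τ t
    refine ⟨c, c0, c1, ?_⟩
    show _ = _ * (_ * _ / _)
    rw [← mul_div_assoc, ← mul_assoc, ← c2, hy τ t, div_self y0]
  have t2 : Tr p A (fun σ => l σ * σ y / y) s Q (b ^ p * (l s * s y / y)) := ⟨b, hb, hQ, rfl⟩
  generalize b ^ p * (l s * s y / y) = ν at t2
  refine ⟨ν, fun τ t => ?_, ?_⟩
  · have a1 := H.tr_mul trivial trivial (t1 τ t) t2
    have a2 := H.tr_mul trivial trivial t2 (t1 _ (hs τ t))
    rw [hQ1 τ t, Matrix.one_mul, one_mul] at a1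
    rw [map_one', Matrix.mul_one, map_one, mul_one, ← mul_assoc, mul_inv_cancel_left] at a2
    exact a1.uniq a2
  · have a1 : ∀ i, Q.map (s ^ i : K ≃ₐ[k] K) = Q := fun i => by
      induction i with
      | zero => rfl
      | succ i ih =>
        conv_rhs => rw [← ih, ← hQ2]
        rw [pow_succ]
        rfl
    have a2 : ∀ i, Tr p A (fun σ => l σ * σ y / y) (s ^ i) (Q ^ i)
        (∏ j ∈ Finset.range i, (s ^ j) ν) := fun i => by
      induction i with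
      | zero => simpa using t1 1 Γ.one_mem
      | succ i ih =>
        have := H.tr_mul trivial trivial ih t2
        rwa [a1, ← pow_succ, ← pow_succ, ← Finset.prod_range_succ (fun j => (s ^ j) ν)] at this
    have a3 := (t1 _ hm).smul γ0
    rw [← hγ, mul_one] at a3
    exact (a2 m).uniq a3

/-- The operators after a base change and a conjugation. -/
noncomputable def bc {R Ω : Type} [Field R] [Field Ω] [Algebra R Ω] (A : (K ≃ₐ[k] K) → GL n K)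
    (ι : K →+* Ω) (res : (Ω ≃ₐ[R] Ω) → (K ≃ₐ[k] K)) (g : GL n Ω) (τ : Ω ≃ₐ[R] Ω) : GL n Ω :=
  g⁻¹ * GeneralLinearGroup.map ι (A (res τ)) * GeneralLinearGroup.map (τ : Ω →+* Ω) g

theorem bc_val {R Ω : Type} [Field R] [Field Ω] [Algebra R Ω] (A : (K ≃ₐ[k] K) → GL n K)
    (ι : K →+* Ω) (res : (Ω ≃ₐ[R] Ω) → (K ≃ₐ[k] K)) (g : GL n Ω) (τ : Ω ≃ₐ[R] Ω) :
    (bc A ι res g τ).1 = g⁻¹.1 * (A (res τ)).1.map ι * g.1.map τ := rfl

theorem PA.base {R Ω : Type} [Field R] [Field Ω] [Algebra R Ω] (h : PA Γ p A l) (ι : K →+* Ω)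
    (res : (Ω ≃ₐ[R] Ω) → (K ≃ₐ[k] K)) (hΓ : ∀ τ, res τ ∈ Γ) (hr : ∀ τ x, ι (res τ x) = τ (ι x))
    (g : GL n Ω) : PA ⊤ p (bc A ι res g) fun τ => ι (l (res τ)) := by
  classical
  have r1 : ∀ σ τ, res (σ * τ) = res σ * res τ := fun σ τ => AlgEquiv.ext fun x =>
    ι.injective (by rw [AlgEquiv.mul_apply, hr, hr, hr, AlgEquiv.mul_apply])
  have r2 : ∀ (τ : Ω ≃ₐ[R] Ω) (M : Matrix n n K), (M.map ι).map τ = (M.map (res τ)).map ι :=
    fun τ M => Matrix.ext fun i j => (hr τ _).symm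
  have r3 : ∀ (c : K) (M : Matrix n n K), (c • M).map ι = ι c • M.map ι := fun c M =>
    Matrix.ext fun i j => map_mul ι _ _
  refine ⟨fun τ _ => (_root_.map_ne_zero ι).2 (h.ne _ (hΓ τ)), fun σ _ τ _ => ?_, ?_⟩
  · obtain ⟨c, e1, e2⟩ := h.mul _ (hΓ σ) _ (hΓ τ)
    have i1 : g.1.map σ * g⁻¹.1.map σ = 1 := by rw [← map_mul', Units.mul_inv, map_one']
    refine ⟨ι c, ?_, by rw [← hr, ← map_mul, e2, map_mul, map_pow, r1]⟩
    rw [bc_val, bc_val, bc_val, map_mul', map_mul', r2, r1, ← Matrix.smul_mul, ← Matrix.mul_smul,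
      ← r3, ← e1, Matrix.map_mul]
    simp only [Matrix.mul_assoc]
    rw [← Matrix.mul_assoc (g.1.map σ), i1, Matrix.one_mul]
    rfl
  · obtain ⟨S, hS⟩ := h.cont
    refine (Op.and (P := fun τ => ∃ c : K, (A (res τ)).1 = c • 1 ∧ l (res τ) = c ^ p)
      ⟨S.image ι, fun τ _ e => hS _ (hΓ τ) fun x hx => ι.injective
        ((hr τ x).trans (e _ (Finset.mem_image_of_mem _ hx)))⟩ (Op.mat ⊤ g.1)).imp ?_
    rintro τ - ⟨⟨c, e1, e2⟩, e3⟩
    refine ⟨ι c, ?_, by rw [e2, map_pow]⟩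
    rw [bc_val, e1, e3, r3, Matrix.map_one _ (map_zero ι) (map_one ι), Matrix.mul_smul,
      Matrix.mul_one, Matrix.smul_mul, Units.inv_mul]

/-- **The exponent bound.** -/
theorem PA.norm [Nonempty n] [IsGalois k K] (h : PA ⊤ p A l) {R W : Type} [Field R] [CharZero R]
    [Algebra k R] [Field W] [Algebra R W] [FiniteDimensional R W] (σ : W ≃ₐ[R] W) {m : ℕ}
    (m0 : 0 < m) (hm : ∀ w, σ^[m] w = w) (ψ : A0 A →+* Matrix n n W)
    (hψ : ∀ c : k, ψ (algebraMap k _ c) = algebraMap R W (algebraMap k R c) • 1)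
    {Q : Matrix n n W} (hQ : ∀ x, Q * (ψ x).map σ = ψ x * Q) (hQ2 : Q.map σ = Q) {γ : W}
    (γ0 : γ ≠ 0) (hγ : Q ^ m = γ • 1) : ∃ ν : W, ∏ i ∈ Finset.range m, σ^[i] ν = γ ^ p := by
  let Ω := AlgebraicClosure W
  let j := algebraMap W Ω
  have : Algebra.IsAlgebraic R Ω := Algebra.IsAlgebraic.trans R W Ω
  have : IsAlgClosure R Ω := ⟨inferInstance, inferInstance⟩
  have : IsGalois R Ω := ⟨⟩
  let _ : Algebra k Ω := ((algebraMap R Ω).comp (algebraMap k R)).toAlgebra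
  have : IsScalarTower k R Ω := IsScalarTower.of_algebraMap_eq fun _ => rfl
  let ι : K →ₐ[k] Ω := IsAlgClosed.lift
  let _ : Algebra K Ω := ι.toRingHom.toAlgebra
  have : IsScalarTower k K Ω := IsScalarTower.of_algebraMap_eq fun c => (ι.commutes c).symm
  let res : (Ω ≃ₐ[R] Ω) → (K ≃ₐ[k] K) := fun τ => (τ.restrictScalars k).restrictNormal K
  have hr : ∀ τ x, ι.toRingHom (res τ x) = τ (ι.toRingHom x) := fun τ x =>
    AlgEquiv.restrictNormal_commutes (τ.restrictScalars k) K x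
  have jm : ∀ (c : W) (M : Matrix n n W), (c • M).map j = j c • M.map j := fun c M =>
    Matrix.ext fun _ _ => map_mul j _ _
  have j1 : (1 : Matrix n n W).map j = 1 := Matrix.map_one _ (map_zero j) (map_one j)
  obtain ⟨g, hg⟩ := h.frm.conj ι.toRingHom (j.mapMatrix.comp ψ) fun c => by
    rw [RingHom.comp_apply, hψ, RingHom.mapMatrix_apply, jm, j1]
    congr 1
    exact (IsScalarTower.algebraMap_apply R W Ω _).symm.trans (ι.commutes c).symm
  replace hg : ∀ x : A0 A, x.1.map ι.toRingHom * g.1 = g.1 * (ψ x).map j := hg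
  have H := h.base ι.toRingHom res (fun _ => trivial) hr g
  have hg' : ∀ x : A0 A, g⁻¹.1 * x.1.map ι.toRingHom = (ψ x).map j * g⁻¹.1 := fun x => by
    rw [Units.eq_mul_inv_iff_mul_eq, Matrix.mul_assoc, hg, Units.inv_mul_cancel_left]
  have b1 : ∀ (τ : Ω ≃ₐ[R] Ω) x, (bc A ι.toRingHom res g τ).1 * ((ψ x).map j).map τ =
      (ψ x).map j * (bc A ι.toRingHom res g τ).1 := fun τ x => by
    have e : (x.1.map ι.toRingHom).map τ = (x.1.map (res τ)).map ι.toRingHom :=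
      Matrix.ext fun a b => (hr τ _).symm
    rw [bc_val, Matrix.mul_assoc, ← map_mul', ← hg, map_mul', e, ← Matrix.mul_assoc,
      Matrix.mul_assoc g⁻¹.1, ← Matrix.map_mul, x.2, Matrix.map_mul, ← Matrix.mul_assoc, hg']
    simp only [Matrix.mul_assoc]
  have b2 : ∀ M : Matrix n n Ω, (∀ x, M * (ψ x).map j = (ψ x).map j * M) → ∃ c : Ω, M = c • 1 :=
    fun M hM => by
      obtain ⟨c, hc⟩ := h.frm.scalar ι.toRingHom (M := g.1 * M * g⁻¹.1) fun x hx => by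
        rw [Matrix.mul_assoc, hg' ⟨x, hx⟩, ← Matrix.mul_assoc, Matrix.mul_assoc g.1, hM,
          ← Matrix.mul_assoc, ← hg]
        simp only [Matrix.mul_assoc]
      refine ⟨c, ?_⟩
      rw [← Units.inv_mul_cancel_left g M, ← Units.inv_mul_cancel_right (g.1 * M) g, hc,
        Matrix.smul_mul, Matrix.one_mul, Matrix.mul_smul, Units.inv_mul]
  let L := (IsScalarTower.toAlgHom R W Ω).fieldRange
  have hL : ∀ τ, τ ∈ L.fixingSubgroup ↔ ∀ w, τ (j w) = j w := fun τ =>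
    ⟨fun e w => e ⟨j w, w, rfl⟩, fun e => by rintro ⟨_, w, rfl⟩; exact e w⟩
  let s : Ω ≃ₐ[R] Ω := σ.liftNormal Ω
  have hs : ∀ w, s (j w) = j (σ w) := σ.liftNormal_commutes Ω
  have hs' : ∀ (i : ℕ) w, (s ^ i) (j w) = j (σ^[i] w) := fun i => by
    induction i with
    | zero => exact fun _ => rfl
    | succ i ih => intro w; rw [pow_succ, AlgEquiv.mul_apply, hs, ih]; rfl
  have sm : ∀ M : Matrix n n W, (M.map j).map s = (M.map σ).map j := fun M =>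
    Matrix.ext fun a b => hs _
  obtain ⟨b, hb⟩ := b2 (Q.map j * (bc A ι.toRingHom res g s)⁻¹.1) fun x => by
    rw [← Matrix.mul_assoc, ← Matrix.map_mul, ← hQ, Matrix.map_mul, ← sm, Matrix.mul_assoc,
      Matrix.mul_assoc]
    congr 1
    rw [Units.inv_mul_eq_iff_eq_mul, ← Matrix.mul_assoc, b1, Units.mul_inv_cancel_right]
  replace hb : Q.map j = b • (bc A ι.toRingHom res g s).1 := by
    rw [← Units.inv_mul_cancel_right (Q.map j) (bc A ι.toRingHom res g s), hb, Matrix.smul_mul,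
      Matrix.one_mul]
  have hγ' : Q.map j ^ m = j γ • 1 := by
    rw [← j1, ← jm, ← hγ]
    exact (map_pow j.mapMatrix Q m).symm
  have jγ : j γ ≠ 0 := (_root_.map_ne_zero j).2 γ0
  obtain ⟨ν, h1, h2⟩ := H.core L.fixingSubgroup (fun τ t => b2 _ fun x => by
      rw [← b1]
      congr 1
      exact Matrix.ext fun a b => ((hL τ).1 t _).symm)
    (s := s) (fun τ t => (hL _).2 fun w => by
      rw [AlgEquiv.mul_apply, AlgEquiv.mul_apply, hs, (hL τ).1 t, ← hs]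
      exact s.symm_apply_apply _)
    (m := m) ((hL _).2 fun w => by rw [hs', hm]) (Q := Q.map j) (b := b) (by
      rintro rfl
      rw [hb, zero_smul, zero_pow m0.ne'] at hγ'
      exact smul_ne_zero jγ one_ne_zero hγ'.symm) hb
    (fun τ t => Matrix.ext fun a b => (hL τ).1 t _) (by rw [sm, hQ2]) jγ hγ'
  obtain ⟨w, rfl⟩ := fixed_sub L h1
  refine ⟨w, j.injective ?_⟩
  rw [map_prod, map_pow, ← h2]
  exact Finset.prod_congr rfl fun i _ => (hs' i w).symm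

end Vale.Agent.P011LQ
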