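import Vale.Agent.P011LQ.Exp
import Vale.Agent.P011.W.LocC

/-!
The local index of the algebra of a projective action divides the exponent.
-/

open Matrix Module TensorProduct

namespace Vale.Agent.P011LQ

open Vale.Agent.P011LD Vale.Agent.P011.W Vale.Agent.P011.Even.LocDiv

section

variable {k E : Type} [NontriviallyNormedField k] [CompleteSpace k] [NormedDivisionRing E]
  [NormedAlgebra k E] [IsUltrametricDist E] [FiniteDimensional k E] {R : Frame E} {W : Type}
  [Field W] [Algebra k W] (C : Cyc k E W R)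

theorem cyc_deg [FiniteDimensional k W] [Algebra.IsCentral k E] :
    finrank k E = C.m ^ 2 ∧ finrank k W = C.m := by
  classical
  obtain ⟨X, hX, hdim⟩ := C.exists_X
  let Xa : E →ₐ[k] Matrix (Fin C.m) (Fin C.m) W :=
    { X with
      commutes' := fun c => by
        change X (algebraMap k E c) = _
        rw [← C.ι.commutes, hX]
        ext i j
        rw [Matrix.algebraMap_matrix_apply, Matrix.diagonal_apply, C.σ_alg] }
  rw [Module.finrank_fin_fun] at hdim
  have h1 : C.m ≤ finrank k W := by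
    let s : Fin C.m → (W →ₐ[k] W) := fun i => C.σ ^ (i : ℕ)
    have hs : ∀ i : Fin C.m, s i C.ω = C.ω ^ (R.j ^ (i : ℕ)) := fun i => by
      rw [← C.σ_ω, ← AlgHom.coe_pow]
    have hinj : Function.Injective s := by
      intro a b hab
      by_contra hne
      have h2 := congrArg (fun g : W →ₐ[k] W => C.ι (g C.ω)) hab
      simp only [hs, map_pow, C.hω] at h2
      have h3 := C.norm_ζ_sub (fun h => hne (Fin.ext h)) a.2 b.2
      rw [h2, sub_self, norm_zero] at h3
      exact zero_ne_one h3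
    have h2 := Nat.card_le_card_of_injective s hinj
    rw [Nat.card_eq_fintype_card, Fintype.card_fin] at h2
    exact h2.trans (card_algHom_le_finrank k W W)
  have h4 := (Vale.Agent.P011S.SF.split_indep C.m0 Xa (finBasis k E)
    (finBasis k E).linearIndependent).fintype_card_le_finrank
  rw [Fintype.card_fin, Module.finrank_matrix, Fintype.card_fin, Module.finrank_self,
    mul_one, ← hdim] at h4
  have h5 := le_antisymm (Nat.le_of_mul_le_mul_left h4 C.m0) h1
  exact ⟨by rw [← hdim, h5, pow_two], h5⟩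

theorem cyc_X : ∃ X : E →ₐ[k] Matrix (Fin C.m) (Fin C.m) W,
    ∀ d, (X d).map C.σ = X (R.π * d * R.π⁻¹) := by
  obtain ⟨-, -, hdim⟩ := C.exists_X
  let _ := modL (C.ι : W →+* E)
  have hs : ∀ (l : W) (d : E), l • d = C.ι l * d := fun _ _ => rfl
  have : IsScalarTower k W E := IsScalarTower.of_algebraMap_smul fun c d => by
    change C.ι (algebraMap k W c) * d = c • d
    rw [C.ι.commutes, Algebra.smul_def]
  let T : Module.End W E :=
    { toFun := fun x => x * R.ζ
      map_add' := fun x y => add_mul _ _ _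
      map_smul' := fun l x => by rw [hs, mul_assoc]; rfl }
  have hli : LinearIndependent W fun i : Fin C.m => R.π ^ (i : ℕ) := by
    refine Module.End.eigenvectors_linearIndependent' T (fun i : Fin C.m => C.ω ^ (R.j ^ (i : ℕ)))
      ?_ _ ?_
    · intro a b hab
      by_contra hne
      have h1 := congrArg C.ι hab
      simp only [map_pow, C.hω] at h1
      have h2 := C.norm_ζ_sub (fun h => hne (Fin.ext h)) a.2 b.2
      rw [h1, sub_self, norm_zero] at h2
      exact zero_ne_one h2
    · intro i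
      rw [Module.End.hasEigenvector_iff, Module.End.mem_eigenspace_iff]
      refine ⟨?_, pow_ne_zero _ R.π0⟩
      change R.π ^ (i : ℕ) * R.ζ = C.ι _ * _
      rw [map_pow, C.hω, pi_pow]
  have : FiniteDimensional k W := FiniteDimensional.of_injective C.ι.toLinearMap C.inj
  have : Nonempty (Fin C.m) := ⟨⟨0, C.m0⟩⟩
  rw [Module.finrank_fin_fun, ← Module.finrank_mul_finrank k W E, mul_comm] at hdim
  let e := basisOfLinearIndependentOfCardEqFinrank hli
    ((Fintype.card_fin _).trans (Nat.eq_of_mul_eq_mul_left Module.finrank_pos hdim))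
  have he : ∀ i, e i = R.π ^ (i : ℕ) := fun i =>
    congrFun (coe_basisOfLinearIndependentOfCardEqFinrank hli _) i
  obtain ⟨X, h1, h2⟩ := exists_reg (C.ι : W →+* E) e
  refine ⟨⟨X, fun c => (h2 _ (fun _ => algebraMap k W c) fun i => ?_).trans ?_⟩, fun d => ?_⟩
  · exact ((congrArg (· * e i) (C.ι.commutes c)).trans (Algebra.commutes c _)).symm
  · ext i j
    rw [Matrix.algebraMap_matrix_apply, Matrix.diagonal_apply]
  · ext i j
    have a1 : ∀ i, e i * R.π = R.π * e i := fun i => by rw [he, ← pow_succ, ← pow_succ']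
    have a2 : ∑ j, X (R.π * d * R.π⁻¹) i j • e j = ∑ j, C.σ (X d i j) • e j := by
      refine (h1 _ i).symm.trans ?_
      rw [← mul_assoc, ← mul_assoc, a1, mul_assoc R.π, h1, Finset.mul_sum, Finset.sum_mul]
      refine Finset.sum_congr rfl fun j _ => ?_
      change R.π * (C.ι _ * _) * _ = C.ι _ * _
      rw [← mul_assoc, C.hσ, mul_assoc (C.ι _), ← a1, mul_assoc, mul_inv_cancel_right₀ R.π0]
    have a3 := congrArg (fun x => e.repr x j) a2
    simp only [e.repr_sum_self] at a3
    exact a3.symm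

omit [CompleteSpace k] [FiniteDimensional k E] in
theorem cyc_dvd {y : W} {i : ℕ} (hi : ‖C.ι y‖ = ‖R.π‖ ^ i) : C.m ∣ i := by
  apply C.dvd_of_fix
  set u : E := C.ι y * (R.π ^ i)⁻¹ with hu
  have hπi : R.π ^ i ≠ 0 := pow_ne_zero _ R.π0
  have hu1 : ‖u‖ = 1 := by
    rw [hu, norm_mul, norm_inv, hi, norm_pow, mul_inv_cancel₀]
    exact pow_ne_zero _ R.πpos.ne'
  have h1 : u * R.ζ ^ (R.j ^ i) = R.ζ * u := by
    apply mul_right_cancel₀ hπi
    have h2 : u * R.π ^ i = C.ι y := by rw [hu, inv_mul_cancel_right₀ hπi]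
    rw [mul_assoc, ← pi_pow, ← mul_assoc, h2, mul_assoc, h2, ← C.hω, ← map_mul, ← map_mul,
      mul_comm]
  have h3 := R.comm_mod hu1 (R.j ^ i)
  rw [h1] at h3
  have h4 : ‖(R.ζ - R.ζ ^ (R.j ^ i)) * u‖ < 1 := by rwa [sub_mul]
  rw [norm_mul, hu1, mul_one, norm_sub_rev] at h4
  have h5 := R.pow_inj (a := R.j ^ i) (b := 1) (by rwa [pow_one])
  rwa [pow_one] at h5

end

/-- The normed structure and the frame of a local division algebra. -/
theorem local_ind {k E : Type} [NontriviallyNormedField k] [IsUltrametricDist k] [ProperSpace k]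
    [i : DivisionRing E] [j : Algebra k E] [FiniteDimensional k E] [Algebra.IsCentral k E] :
    ∃ (i' : NormedDivisionRing E) (j' : NormedAlgebra k E), i'.toDivisionRing = i ∧
      HEq j'.toAlgebra j ∧ IsUltrametricDist E ∧ Nonempty (Frame E) := by
  let _ : NormedDivisionRing E := ndr k
  let _ : NormedAlgebra k E :=
    { (inferInstance : Algebra k E) with
      norm_smul_le := fun c x => by
        change nm k (c • x) ≤ ‖c‖ * nm k x
        rw [Algebra.smul_def, nm_mul, nm_algebraMap] }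
  have hU : IsUltrametricDist E := IsUltrametricDist.isUltrametricDist_of_forall_norm_add_le_max_norm
    (fun x y => nm_add_le_max k x y)
  have : ProperSpace E := FiniteDimensional.proper k E
  obtain ⟨c, hc0, hc1⟩ := NormedField.exists_norm_lt_one k
  have hc : ‖algebraMap k E c‖ = ‖c‖ := nm_algebraMap k c
  exact ⟨_, _, rfl, HEq.rfl, hU, exists_frame (algebraMap k E c)
    (by rw [← norm_ne_zero_iff, hc]; exact hc0.ne') (by rw [hc]; exact hc1)⟩

variable {k K : Type} [Field k] [Field K] [Algebra k K] {n : Type} [Fintype n] [DecidableEq n]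
  {p : ℕ} {A : (K ≃ₐ[k] K) → GL n K} {l : (K ≃ₐ[k] K) → K}

/-- **The local index divides the exponent.** -/
theorem PA.loc_dvd [Nonempty n] [IsGalois k K] (h : PA ⊤ p A l) {s d : ℕ} {D : Type}
    [DivisionRing D] [Algebra k D] (e : A0 A ≃ₐ[k] Matrix (Fin s) (Fin s) D)
    (hs : s * d = Fintype.card n) {R : Type} [NontriviallyNormedField R] [IsUltrametricDist R]
    [ProperSpace R] [CharZero R] [Algebra k R] {t q : ℕ} {E : Type} [i : DivisionRing E]
    [j : Algebra R E] [FiniteDimensional R E] [Algebra.IsCentral R E]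
    (f : R ⊗[k] D ≃ₐ[R] Matrix (Fin t) (Fin t) E) (ht : t * q = d)
    (hq : finrank R E = q ^ 2) : q ∣ p := by
  obtain ⟨i', j', rfl, hj, _, ⟨F⟩⟩ := local_ind (k := R) (E := E)
  obtain rfl := eq_of_heq hj
  obtain ⟨W, _, _, _, ⟨C⟩⟩ := exists_cyc (k := R) F
  obtain rfl : q = C.m := Nat.pow_left_injective two_ne_zero (hq.symm.trans (cyc_deg C).1)
  obtain ⟨X, hX⟩ := cyc_X C
  let ε : Fin s × Fin t × Fin C.m ≃ n := Fintype.equivOfCardEq (by simp [ht, hs])
  let Θ : Matrix (Fin s) (Fin s) (Matrix (Fin t) (Fin t) E) →ₐ[R] Matrix n n W :=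
    ((Matrix.reindexAlgEquiv R W ε).toAlgHom.comp
      (Matrix.compAlgEquiv (Fin s) (Fin t × Fin C.m) W R).toAlgHom).comp
      ((Matrix.compAlgEquiv (Fin t) (Fin C.m) W R).toAlgHom.comp X.mapMatrix).mapMatrix
  let sc : E →+* Matrix (Fin s) (Fin s) (Matrix (Fin t) (Fin t) E) :=
    (Matrix.scalar (Fin s)).comp (Matrix.scalar (Fin t))
  have s1 : ∀ c : R, Θ (sc (algebraMap R E c)) = algebraMap R W c • 1 := fun c =>
    (Θ.commutes c).trans (by rw [Algebra.algebraMap_eq_smul_one, algebraMap_smul])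
  let σ : W ≃ₐ[R] W := AlgEquiv.ofBijective C.σ C.σ.bijective
  have s2 : ∀ y, Θ (sc F.π⁻¹) * (Θ y).map σ = Θ y * Θ (sc F.π⁻¹) := fun y => by
    have a1 : (Θ y).map σ = Θ (y.map fun z => z.map fun x => F.π * x * F.π⁻¹) :=
      Matrix.ext fun a b => congrFun (congrFun (hX _) _) _
    rw [a1, ← map_mul, ← map_mul]
    congr 1
    ext a b c d
    simp only [sc, RingHom.comp_apply, Matrix.scalar_apply, Matrix.diagonal_mul,
      Matrix.mul_diagonal, Matrix.map_apply]
    rw [mul_assoc F.π, inv_mul_cancel_left₀ F.π0]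
  obtain ⟨ϖ, hϖ⟩ := C.exists_ϖ
  have ϖ0 : ϖ ≠ 0 := by
    rintro rfl
    exact pow_ne_zero _ F.π0 (hϖ.symm.trans (map_zero _))
  let g : D →+* Matrix (Fin t) (Fin t) E :=
    f.toRingEquiv.toRingHom.comp (Algebra.TensorProduct.includeRight (R := k) (A := R)).toRingHom
  obtain ⟨ν, hν⟩ := h.norm σ C.m0 C.σ_m
    ((Θ.toRingHom.comp g.mapMatrix).comp e.toRingEquiv.toRingHom) (fun c => by
      rw [← s1]
      change Θ ((e (algebraMap k _ c)).map g) = _
      rw [e.commutes]
      congr 1
      have a1 : g (algebraMap k D c) = Matrix.scalar (Fin t) (algebraMap R E (algebraMap k R c)) :=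
        (congrArg f ((Algebra.TensorProduct.includeRight (R := k) (A := R) (B := D)).commutes
          c)).trans (f.commutes (algebraMap k R c))
      exact (Matrix.diagonal_map (map_zero g)).trans (congrArg Matrix.diagonal (funext fun _ => a1)))
    (Q := Θ (sc F.π⁻¹)) (fun x => s2 _) (by
      have a1 := congrArg (Θ (sc F.π) * ·) (s2 (sc F.π⁻¹))
      simpa only [← Matrix.mul_assoc, ← map_mul, mul_inv_cancel₀ F.π0, map_one, Matrix.one_mul,
        one_mul, mul_inv_cancel_left₀ F.π0] using a1) (γ := algebraMap R W ϖ⁻¹)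
    ((_root_.map_ne_zero _).2 (inv_ne_zero ϖ0))
    (by rw [← map_pow, ← map_pow, inv_pow, ← hϖ, ← map_inv₀, s1])
  have a1 := C.norm_N ν
  rw [show C.N ν = _ from hν, map_pow, norm_pow, C.norm_alg, norm_inv, ← norm_algebraMap' E ϖ, hϖ,
    norm_pow, ← inv_pow, ← pow_mul, mul_comm, pow_mul] at a1
  refine cyc_dvd C (y := ν⁻¹) ?_
  rw [map_inv₀, norm_inv, ← (pow_left_inj₀ (by positivity) (norm_nonneg _) C.m0.ne').1 a1,
    inv_pow, inv_inv]

end Vale.Agent.P011LQ
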